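import Vale.Agent.P167.H662.L.LDefs
import Vale.Agent.P167.H638.L13
import Vale.Agent.P167.H680.Q.Legs
import Vale.Agent.P167.CAQ.Defs

/-!
# P167, general `q`, block Q-LAYER: from (2a) for flows which vanish near the lines of the pinwheel to
(2a) for all neutral charges and to the first moments, statements

`V n f` is any functional of the real charges which is the mean of `XR` for a conditioned measure.
-/

namespace Vale.Agent.P167.H662.L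

open Finset Filter Topology MeasureTheory
open Vale.Agent.P167 Vale.Agent.P167.BR
open Vale.Agent.P167.H542.Q (Phs)
open Vale.Agent.P167.H562.GL (Nu)
open Vale.Agent.P167.H825 (dvg lapl domP Box)
open Vale.Agent.P167.H638 (cm)
open Vale.Agent.P167.H638.L (ChiP obox)
open Vale.Agent.P167.H680.Q (alpq)
open Vale.Agent.P167.BVP (Test)
open Vale.Agent.P167.CAQ (Fam)
open scoped ContDiff

/-- `V n f` is the mean of the functional `XR` for a conditioned measure in `S.D n`, base `S.b n`. -/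
def LawV (S : CA.Dat) (P : Measure Cfg) (L : Filter ℕ) (V : ℕ → (ℤ × ℤ → ℝ) → ℝ) : Prop :=
  ∃ m cc : ℝ, 0 ≤ m ∧ m ≤ Real.pi / 3 ∧ 0 < cc ∧ ∀ᶠ n : ℕ in L,
    ∃ (th : Finset Ed → ℝ) (ν : Measure Cfg), Phs m cc (S.D n) th ∧ Nu P ν (S.D n) ∧
      ∀ f : ℤ × ℤ → ℝ, V n f = ∫ x, XR th (S.D n) (S.b n) f x ∂ν

/-- The cut-off along the lines of the pinwheel has a small effect on `V`. -/
def CutV (S : CA.Dat) (L : Filter ℕ) (V : ℕ → (ℤ × ℤ → ℝ) → ℝ) : Prop :=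
  ∀ (b : Box) (φ₁ φ₂ θ₁ θ₂ : ℝ × ℝ → ℝ), ContDiff ℝ ∞ φ₁ → ContDiff ℝ ∞ φ₂ → ContDiff ℝ ∞ θ₁ →
    ContDiff ℝ ∞ θ₂ → HasCompactSupport φ₁ → HasCompactSupport φ₂ → HasCompactSupport θ₁ →
    HasCompactSupport θ₂ → tsupport φ₁ ⊆ domP S.Q → tsupport φ₂ ⊆ domP S.Q →
    tsupport θ₁ ⊆ domP S.Q → tsupport θ₂ ⊆ domP S.Q → ∀ B Q : ℝ, 0 < B → 0 < Q → ∀ ε > 0,
    ∃ w0 > 0, ∀ w, 0 < w → w < w0 → ∀ χ, ChiP b φ₁ φ₂ B Q w χ → ∀ᶠ n : ℕ in L,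
      |V n (cm (fun x => dvg (fun y => χ y * φ₁ y) (fun y => χ y * φ₂ y) x + dvg θ₁ θ₂ x) (1 / n)) -
        V n (cm (fun x => dvg φ₁ φ₂ x + dvg θ₁ θ₂ x) (1 / n))| ≤ ε

/-- (L-CUT) Model: `H638.L.cut_le` (L12), `H542.geo_ero`, `H542.wide_ero`. -/
def S_cut : Prop :=
  ∀ (S : CA.Dat) (P : Measure Cfg) (L : Filter ℕ) (V : ℕ → (ℤ × ℤ → ℝ) → ℝ), L ≤ atTop →
    S_lay P → LawV S P L V → CutV S L V

/-- (2a) for flows which vanish near the lines (output of helper680's `s2a_abs`, real part). -/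
def TwoA (σ : ℝ) (S : CA.Dat) (L : Filter ℕ) (GP : Box → Prop) (V : ℕ → (ℤ × ℤ → ℝ) → ℝ) :
    Prop :=
  ∀ b : Box, b.Ok S.Q → GP b → ∀ φ₁ φ₂ ψ : ℝ × ℝ → ℝ, ContDiff ℝ ∞ φ₁ → ContDiff ℝ ∞ φ₂ →
    ContDiff ℝ ∞ ψ → HasCompactSupport φ₁ → HasCompactSupport φ₂ → HasCompactSupport ψ →
    tsupport φ₁ ⊆ domP S.Q → tsupport φ₂ ⊆ domP S.Q →
    tsupport ψ ⊆ {x | b.xl < x.1 ∧ x.1 < b.xr ∧ b.yb < x.2 ∧ x.2 < b.yt} →
    Disjoint (tsupport φ₁) b.lines → Disjoint (tsupport φ₂) b.lines →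
  ∀ s : ℝ, Tendsto (fun n : ℕ => V n (cm (fun x => dvg φ₁ φ₂ x + s * lapl ψ x) (1 / n)) -
    alpq σ (dvg φ₁ φ₂) ψ s * V n (cm (dvg φ₁ φ₂) (1 / n))) L (𝓝 0)

/-- (2a) for all neutral charges. -/
def TwoF (σ : ℝ) (S : CA.Dat) (L : Filter ℕ) (GP : Box → Prop) (V : ℕ → (ℤ × ℤ → ℝ) → ℝ) :
    Prop :=
  ∀ f : ℂ → ℝ, S.FF f → ∀ b : Box, b.Ok S.Q → GP b → ∀ ψ : ℂ → ℝ, Test (obox b) ψ → ∀ s : ℝ,
    Tendsto (fun n : ℕ => V n (CA.cms (fun z => f z + s * P198W.lap ψ z) (1 / n)) -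
      Real.exp (σ * s * (∫ z, f z * ψ z) -
        σ / 2 * s ^ 2 * ∫ z, ((fderiv ℝ ψ z 1) ^ 2 + (fderiv ℝ ψ z Complex.I) ^ 2)) *
      V n (CA.cms f (1 / n))) L (𝓝 0)

/-- (L-TWO) Law free. Model: `H638.L.s2a_real` (L12), `H638.L.s_2a` (L13), with `H192.LY.s_strip`. -/
def S_two : Prop :=
  ∀ (σ : ℝ) (S : CA.Dat) (L : Filter ℕ) (GP : Box → Prop) (V : ℕ → (ℤ × ℤ → ℝ) → ℝ), L ≤ atTop →
    CutV S L V → TwoA σ S L GP V → TwoF σ S L GP V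

/-- (L-MOM) Law free. Model: `CA.s_mom`. -/
def S_momF : Prop :=
  ∀ (S : CA.Dat) (F : Fam S) (GP : Box → Prop),
    (∀ x ∈ S.P, ∃ b : Box, b.Ok S.Q ∧ GP b ∧ x ∈ obox b) →
    TwoF F.s S F.L GP (fun n f => (F.Vc n fun z => (f z : ℂ)).re) → F.M2 → F.MOM

end Vale.Agent.P167.H662.L
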