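import Vale.Agent.P167.H662.L.EM1

/-!
# P167, general `q`, block Q-LAYER, L-EM: the super-boxes near a set
-/

namespace Vale.Agent.P167.H662.L

open Finset Filter Topology MeasureTheory
open Vale.Agent.P167 Vale.Agent.P167.BR
open Vale.Agent.P167.H45 (gp BL BL_fin zz zz_box box_of_small nm_le nm_sub_le cl vs_nonempty)
open Vale.Agent.P167.H562.GL
open Vale.Agent.P167.H562.SML
open Vale.Agent.P167.H638.L (Cnt CelB cel)

variable {T : Finset (ℤ × ℤ)} {w z : ℤ × ℤ} {L : ℤ} {j : ℕ}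

/-- The nine neighbours of a cell. -/
noncomputable def nb9 (u : ℤ × ℤ) : Finset (ℤ × ℤ) := Icc (u.1 - 1) (u.1 + 1) ×ˢ Icc (u.2 - 1) (u.2 + 1)

theorem card_nb9 (u : ℤ × ℤ) : (nb9 u).card = 9 := by
  unfold nb9
  rw [Finset.card_product, Int.card_Icc, Int.card_Icc]
  have e1 : u.1 + 1 + 1 - (u.1 - 1) = 3 := by ring
  have e2 : u.2 + 1 + 1 - (u.2 - 1) = 3 := by ring
  rw [e1, e2]; rfl

/-- The cells of mesh `D` near `T`. -/
noncomputable def Wc (T : Finset (ℤ × ℤ)) (D : ℤ) : Finset (ℤ × ℤ) := (cel T D).biUnion nb9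

theorem card_Wc (T : Finset (ℤ × ℤ)) (D : ℤ) : (Wc T D).card ≤ 9 * (cel T D).card := by
  unfold Wc
  refine Finset.card_biUnion_le.trans ?_
  rw [Finset.sum_congr rfl fun u _ => card_nb9 u, Finset.sum_const, smul_eq_mul, mul_comm]

theorem ediv_or {L a v : ℤ} (hL : 0 < L) (h1 : L * a ≤ v) (h2 : v < L * a + 2 * L) :
    v / L = a ∨ v / L = a + 1 := by
  have h3 : a ≤ v / L := by rw [Int.le_ediv_iff_mul_le hL]; linarith
  have h4 : v / L < a + 2 := by rw [Int.ediv_lt_iff_lt_mul hL]; linarith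
  omega

theorem ediv_near {L N a v : ℤ} (hL : 0 < L) (hN : 0 < N) (h1 : L * a ≤ v)
    (h2 : v < L * a + 2 * L) : v / (L * N) - 1 ≤ a / N ∧ a / N ≤ v / (L * N) + 1 := by
  rw [← Int.ediv_ediv_of_nonneg hL.le]
  have h5 : (a + 1) / N ≤ a / N + 1 := by
    have e1 := Int.emod_add_mul_ediv (a + 1) N
    have e2 := Int.emod_add_mul_ediv a N
    have e3 := Int.emod_nonneg (a + 1) hN.ne'
    have e4 := Int.emod_lt_of_pos a hN
    have e5 : N * ((a + 1) / N) < N * (a / N + 2) := by nlinarith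
    have := lt_of_mul_lt_mul_left e5 hN.le
    omega
  have h6 : a / N ≤ (a + 1) / N := Int.ediv_le_ediv hN (by omega)
  rcases ediv_or hL h1 h2 with h | h <;> rw [h] <;> constructor <;> omega

/-- The super-box of a cell which is met by `T` is near `T`. -/
theorem mem_Wc (hL : 0 < L) (hz : z ∈ sS j w) {v : ℤ × ℤ} (hv : v ∈ T)
    (hb : v ∈ H45.Bq L z) : w ∈ Wc T (L * sN j) := by
  have hN := sN_pos j
  rw [mem_sS] at hz
  obtain ⟨b1, b2, b3, b4⟩ := hb
  obtain ⟨c1, c2⟩ := ediv_near hL (by omega : 0 < sN j) b1 b2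
  obtain ⟨c3, c4⟩ := ediv_near hL (by omega : 0 < sN j) b3 b4
  unfold Wc
  rw [Finset.mem_biUnion]
  refine ⟨(v.1 / (L * sN j), v.2 / (L * sN j)), Finset.mem_image_of_mem _ hv, ?_⟩
  unfold nb9
  rw [Finset.mem_product, Finset.mem_Icc, Finset.mem_Icc, hz]
  exact ⟨⟨c1, c2⟩, c3, c4⟩

/-- The neighbourhoods of the super-boxes are near `T`. -/
theorem Wc_near (hL : 0 < L) (hw : w ∈ Wc T (L * sN j)) :
    ∃ v ∈ T, ∀ u ∈ sU L j w, nm (u - v) ≤ 3 * (L * sN j) := by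
  have hN := sN_pos j
  set D := L * sN j with hD
  have hD0 : 0 < D := by positivity
  unfold Wc at hw
  rw [Finset.mem_biUnion] at hw
  obtain ⟨c, hc, hwc⟩ := hw
  obtain ⟨v, hv, rfl⟩ := Finset.mem_image.1 hc
  unfold nb9 at hwc
  rw [Finset.mem_product, Finset.mem_Icc, Finset.mem_Icc] at hwc
  obtain ⟨⟨g1, g2⟩, g3, g4⟩ := hwc
  dsimp only at g1 g2 g3 g4
  refine ⟨v, hv, fun u hu => ?_⟩
  unfold sU at hu
  rw [Finset.mem_product, Finset.mem_Ico, Finset.mem_Ico, ← hD] at hu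
  obtain ⟨⟨u1, u2⟩, u3, u4⟩ := hu
  have key : ∀ x a b : ℤ, a / D - 1 ≤ b → b ≤ a / D + 1 → D * (b - 1) ≤ x → x < D * (b + 2) →
      -(3 * D) ≤ x - a ∧ x - a ≤ 3 * D := by
    intro x a b k1 k2 k3 k4
    have e1 := Int.emod_add_mul_ediv a D
    have e2 := Int.emod_nonneg a hD0.ne'
    have e3 := Int.emod_lt_of_pos a hD0
    have m1 : D * (a / D - 2) ≤ D * (b - 1) := mul_le_mul_of_nonneg_left (by omega) hD0.le
    have m2 : D * (b + 2) ≤ D * (a / D + 3) := mul_le_mul_of_nonneg_left (by omega) hD0.le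
    constructor <;> nlinarith
  rw [nm_le]
  simp only [Prod.fst_sub, Prod.snd_sub, abs_le]
  exact ⟨key _ _ _ g1 g2 u1 u2, key _ _ _ g3 g4 u3 u4⟩

/-- The number of the squares of `T` near a cell. -/
def nT (T : Finset (ℤ × ℤ)) (L : ℤ) (z : ℤ × ℤ) : ℕ :=
  (T.filter fun v => nm (v - gp L z) ≤ 4 * L).card

/-- The sum over the cells of a super-box. -/
theorem sum_nT (hL : 1 ≤ L) (w : ℤ × ℤ) : (∑ z ∈ sS j w, (nT T L z : ℝ)) ≤
    81 * ((T.filter fun v => nm (v - gp (L * sN j) w) ≤ 2 * (L * sN j)).card : ℝ) := by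
  classical
  have hN := sN_pos j
  have hL0 : 0 < L := by linarith
  have h1 : ∑ z ∈ sS j w, nT T L z ≤
      81 * (T.filter fun v => nm (v - gp (L * sN j) w) ≤ 2 * (L * sN j)).card := by
    unfold nT
    simp only [Finset.card_filter]
    rw [Finset.sum_comm, Finset.mul_sum]
    refine Finset.sum_le_sum fun v _ => ?_
    rw [← Finset.card_filter]
    by_cases hv : nm (v - gp (L * sN j) w) ≤ 2 * (L * sN j)
    · rw [if_pos hv, mul_one]
      have hsub : (sS j w).filter (fun z => nm (v - gp L z) ≤ 4 * L) ⊆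
          Icc (v.1 / L - 4) (v.1 / L + 4) ×ˢ Icc (v.2 / L - 4) (v.2 / L + 4) := by
        intro z hz
        have h2 := (Finset.mem_filter.1 hz).2
        rw [nm_le] at h2
        simp only [gp, Prod.fst_sub, Prod.snd_sub, abs_le] at h2
        obtain ⟨⟨a1, a2⟩, a3, a4⟩ := h2
        have key : ∀ x a : ℤ, -(4 * L) ≤ x - L * a → x - L * a ≤ 4 * L →
            x / L - 4 ≤ a ∧ a ≤ x / L + 4 := by
          intro x a k1 k2
          have e1 := Int.emod_add_mul_ediv x L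
          have e2 := Int.emod_nonneg x hL0.ne'
          have e3 := Int.emod_lt_of_pos x hL0
          have m1 : L * (x / L) ≤ L * (a + 4) := by nlinarith
          have m2 : L * a < L * (x / L + 5) := by nlinarith
          have m3 := le_of_mul_le_mul_left m1 hL0
          have m4 := lt_of_mul_lt_mul_left m2 hL0.le
          omega
        rw [Finset.mem_product, Finset.mem_Icc, Finset.mem_Icc]
        exact ⟨key _ _ a1 a2, key _ _ a3 a4⟩
      refine (Finset.card_le_card hsub).trans (le_of_eq ?_)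
      rw [Finset.card_product, Int.card_Icc, Int.card_Icc]
      have e1 : v.1 / L + 4 + 1 - (v.1 / L - 4) = 9 := by ring
      have e2 : v.2 / L + 4 + 1 - (v.2 / L - 4) = 9 := by ring
      rw [e1, e2]; rfl
    · rw [if_neg hv, mul_zero, Nat.le_zero, Finset.card_eq_zero, Finset.filter_eq_empty_iff]
      intro z hz h2
      apply hv
      unfold sS at hz
      rw [Finset.mem_product, Finset.mem_Ico, Finset.mem_Ico] at hz
      obtain ⟨⟨z1, z2⟩, z3, z4⟩ := hz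
      rw [nm_le] at h2 ⊢
      simp only [gp, Prod.fst_sub, Prod.snd_sub, abs_le] at h2 ⊢
      obtain ⟨⟨a1, a2⟩, a3, a4⟩ := h2
      have key : ∀ x a b : ℤ, sN j * b ≤ a → a < sN j * b + sN j → -(4 * L) ≤ x - L * a →
          x - L * a ≤ 4 * L → -(2 * (L * sN j)) ≤ x - L * sN j * b ∧
          x - L * sN j * b ≤ 2 * (L * sN j) := by
        intro x a b k1 k2 k3 k4
        have m1 : L * (sN j * b) ≤ L * a := mul_le_mul_of_nonneg_left k1 hL0.le
        have m2 : L * a ≤ L * (sN j * b + sN j) := mul_le_mul_of_nonneg_left k2.le hL0.le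
        have m3 : L * 4 ≤ L * sN j := mul_le_mul_of_nonneg_left hN hL0.le
        constructor <;> nlinarith
      exact ⟨key _ _ _ z1 z2 a1 a2, key _ _ _ z3 z4 a3 a4⟩
  exact_mod_cast h1

/-- The decomposition, only the scale of the loop matters. -/
theorem decompS {A : Finset (ℤ × ℤ)} {x : ℝ} {J : ℕ} (hJ : x / 2 ^ J ≤ 1)
    {Ig : ℕ → Finset (ℤ × ℤ)}
    (hIg : ∀ j < J, ∀ ω, ∀ ℓ ∈ smf A x ω, cl x ℓ = j → zz ⌈x / 2 ^ j⌉ ℓ ∈ Ig j)
    (φ : Finset Ed → ℝ) (ω : Cfg) :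
    ∑ ℓ ∈ smf A x ω, φ ℓ = ∑ j ∈ Finset.range J, ∑ z ∈ Ig j, YY A x φ j z ω := by
  classical
  have h1 : ∑ ℓ ∈ smf A x ω, φ ℓ =
      ∑ j ∈ Finset.range J, ∑ ℓ ∈ (smf A x ω).filter (fun ℓ => cl x ℓ = j), φ ℓ := by
    rw [Finset.sum_fiberwise_of_maps_to]
    intro ℓ hℓ
    exact Finset.mem_range.2 (scale_of hJ hℓ).1
  rw [h1]
  refine Finset.sum_congr rfl fun j hj => ?_
  unfold YY
  have h2 : ∑ ℓ ∈ (smf A x ω).filter (fun ℓ => cl x ℓ = j), φ ℓ =
      ∑ z ∈ Ig j, ∑ ℓ ∈ ((smf A x ω).filter (fun ℓ => cl x ℓ = j)).filter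
        (fun ℓ => zz ⌈x / 2 ^ j⌉ ℓ = z), φ ℓ := by
    rw [Finset.sum_fiberwise_of_maps_to]
    intro ℓ hℓ
    exact hIg j (Finset.mem_range.1 hj) ω ℓ (Finset.mem_filter.1 hℓ).1 (Finset.mem_filter.1 hℓ).2
  rw [h2]
  refine Finset.sum_congr rfl fun z _ => ?_
  rw [Finset.filter_filter]

/-- Bound of one cell. -/
theorem YY_nT {x b : ℝ} (hb : 0 ≤ b) {J : ℕ} (hJ : x / 2 ^ J ≤ 1) {φ : Finset Ed → ℝ}
    (hφ : Mb T b (2 * x) φ) (hj : 1 ≤ x / 2 ^ j) (z : ℤ × ℤ) (ω : Cfg) :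
    |YY T x φ j z ω| ≤ b * (nT T ⌈x / 2 ^ j⌉ z : ℝ) *
      ((BL (gp ⌈x / 2 ^ j⌉ z) (2 * (⌈x / 2 ^ j⌉ : ℝ))
      (1 / 8 * (2 * (⌈x / 2 ^ j⌉ : ℝ))) ω).ncard : ℝ) := by
  classical
  set L : ℤ := ⌈x / 2 ^ j⌉ with hL
  have hL1 : 1 ≤ L := Int.one_le_ceil_iff.2 (by linarith)
  set φ' : Finset Ed → ℝ := fun ℓ => if zz L ℓ = z then φ ℓ else 0 with hφ'
  have e : YY T x φ j z ω = YY T x φ' j z ω := by
    unfold YY
    refine Finset.sum_congr rfl fun ℓ hℓ => ?_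
    simp only [hφ']
    rw [← hL] at hℓ
    rw [if_pos (Finset.mem_filter.1 hℓ).2.2]
  rw [e]
  refine YY_le hJ hj z ω (by positivity) fun ℓ h1 h2 => ?_
  simp only [hφ']
  by_cases hz : zz L ℓ = z
  · rw [if_pos hz]
    obtain ⟨v, hv⟩ := vs_nonempty h1
    have hLx : (L : ℝ) ≤ 2 * x := by
      have h3 := Int.ceil_lt_add_one (x / 2 ^ j)
      rw [← hL] at h3
      have h4 : x / 2 ^ j ≤ x := div_le_self (by
        have : 0 < x / 2 ^ j := by linarith
        have h2j : (0 : ℝ) < 2 ^ j := by positivity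
        exact ((div_pos_iff_of_pos_right h2j).1 this).le) (one_le_pow₀ (by norm_num))
      linarith
    have hs : Small (L : ℝ) ℓ := H45.Small.mono (Int.le_ceil _) h2
    have h3 := hφ ω ℓ L h1 hL1 hLx hs v hv
    refine h3.trans (mul_le_mul_of_nonneg_left ?_ hb)
    have h5 := box_of_small h2 hv
    rw [← hL, hz] at h5
    obtain ⟨b1, b2, b3, b4⟩ := h5
    unfold nT
    refine Nat.cast_le.2 (Finset.card_le_card fun u hu => ?_)
    rw [Finset.mem_filter] at hu ⊢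
    refine ⟨hu.1, ?_⟩
    have h6 := hu.2
    rw [nm_le] at h6 ⊢
    simp only [gp, Prod.fst_sub, Prod.snd_sub, abs_le] at h6 ⊢
    obtain ⟨⟨a1, a2⟩, a3, a4⟩ := h6
    refine ⟨⟨?_, ?_⟩, ?_, ?_⟩ <;> linarith
  · rw [if_neg hz, abs_zero]
    positivity

end Vale.Agent.P167.H662.L
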