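import Vale.Agent.P167.H662.L.Lay1
import Vale.Agent.P167.H662.L.EM2

/-!
# P167, general `q`, block Q-LAYER, L-ABS: first absolute moments, infinite-volume measure
-/

namespace Vale.Agent.P167.H662.L

open Finset Filter Topology MeasureTheory
open Vale.Agent.P167 Vale.Agent.P167.BR Vale.Agent.P167.FK
open Vale.Agent.P167.H45 (gp BL BL_fin zz zz_box box_of_small nm_le nm_sub_le cl vs_nonempty
  BL_measR)
open Vale.Agent.P167.H562 (Em Em_mono Em_eq integrable_exp_of_Em)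
open Vale.Agent.P167.H562.GL
open Vale.Agent.P167.H562.SML
open Vale.Agent.P167.H638.L (cel cel4 card_cel4 mem_cel4)
open Vale.Agent.P167.H167 (Fd)

theorem fd_YY (A : Finset (ℤ × ℤ)) (x : ℝ) (φ : Finset Ed → ℝ) (j : ℕ) (z : ℤ × ℤ) :
    Fd (YY A x φ j z) := by
  refine ⟨fat A x, fun ω ω' hw => ?_⟩
  unfold YY
  rw [smf_loc' A x fun v hv => hw v (Finset.mem_coe.2 hv)]

/-- **(L-ABS)** -/
theorem s_abs {q al Ca : ℝ} {P : Measure Cfg} (hI : Inp q al Ca P) : S_abs P := by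
  classical
  have hPp : IsProbabilityMeasure P := hI.lim.1
  obtain ⟨C, hC⟩ := large_gen hI.crs s_con s_two (1 / 8) 1 (by norm_num)
  set M : ℝ := max C 1 with hM
  have hM0 : 0 ≤ M := by positivity
  have hE : ∀ (c : ℤ × ℤ) (ρ : ℝ), 1 ≤ ρ →
      Integrable (fun ω => Real.exp (1 * ((BL c ρ (1 / 8 * ρ) ω).ncard : ℝ))) P ∧
      ∫ ω, Real.exp (1 * ((BL c ρ (1 / 8 * ρ) ω).ncard : ℝ)) ∂P ≤ M := by
    intro c ρ hρ
    have h1 : Em P (fun ω => 1 * ((BL c ρ (1 / 8 * ρ) ω).ncard : ℝ)) ≤ ENNReal.ofReal M :=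
      (hC c ρ hρ).trans (ENNReal.ofReal_le_ofReal (le_max_left _ _))
    have h2 := integrable_exp_of_Em (μ := P) ((BL_measR c ρ (1 / 8 * ρ)).const_mul 1) h1
    refine ⟨h2, ?_⟩
    rw [Em_eq h2] at h1
    exact (ENNReal.ofReal_le_ofReal_iff hM0).1 h1
  refine ⟨8 * M, by positivity, fun T ρ ψ a β hρ hβ ha0 hψ ha2 => ?_⟩
  obtain ⟨J, hJ, hJ'⟩ := exists_J (κ := 1) one_pos hρ
  rw [one_mul] at hJ
  have hJ1 : ∀ j < J, 1 ≤ ρ / 2 ^ j := fun j hj => by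
    have := hJ' j hj
    rwa [one_mul] at this
  set ψ' : Finset Ed → ℝ := fun ℓ => if ∃ v ∈ vs ℓ, v ∈ T then |ψ ℓ| else 0 with hψ'
  have hsum : ∀ ω, ∑ ℓ ∈ smf T ρ ω, |ψ ℓ| = ∑ ℓ ∈ smf T ρ ω, ψ' ℓ := fun ω =>
    Finset.sum_congr rfl fun ℓ hℓ => by
      simp only [hψ']
      rw [if_pos (mem_smf.1 hℓ).2.1]
  have hdec : ∀ ω, ∑ ℓ ∈ smf T ρ ω, ψ' ℓ =
      ∑ j ∈ Finset.range J, ∑ z ∈ cel4 T ⌈ρ / 2 ^ j⌉, YY T ρ ψ' j z ω := fun ω => by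
    refine decompS hJ (fun j hj ω ℓ hℓ hcl => ?_) ψ' ω
    have h1 := (scale_of hJ hℓ).2.1
    rw [hcl] at h1
    obtain ⟨h2, ⟨v, hv, hvT⟩, h3⟩ := mem_smf.1 hℓ
    exact mem_cel4 (Int.ceil_pos.2 (by linarith [hJ1 j hj])) hvT (box_of_small h1 hv)
  have hY : ∀ j < J, ∀ z, ∫ ω, YY T ρ ψ' j z ω ∂P ≤ a j * M := by
    intro j hj z
    have hj1 := hJ1 j hj
    have hL1 : (1 : ℝ) ≤ (⌈ρ / 2 ^ j⌉ : ℝ) := by
      exact_mod_cast Int.one_le_ceil_iff.2 (by linarith : 0 < ρ / 2 ^ j)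
    obtain ⟨h1, h2⟩ := hE (gp ⌈ρ / 2 ^ j⌉ z) (2 * (⌈ρ / 2 ^ j⌉ : ℝ)) (by linarith)
    calc ∫ ω, YY T ρ ψ' j z ω ∂P
        ≤ ∫ ω, a j * Real.exp (1 * ((BL (gp ⌈ρ / 2 ^ j⌉ z) (2 * (⌈ρ / 2 ^ j⌉ : ℝ))
            (1 / 8 * (2 * (⌈ρ / 2 ^ j⌉ : ℝ))) ω).ncard : ℝ)) ∂P := by
          refine integral_mono (Fd.intN (fd_YY T ρ ψ' j z)) (h1.const_mul _) fun ω => ?_
          simp only
          refine (le_abs_self _).trans ((YY_le hJ hj1 z ω (ha0 j) fun ℓ g1 g2 => ?_).trans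
            (mul_le_mul_of_nonneg_left ?_ (ha0 j)))
          · simp only [hψ']
            by_cases h : ∃ v ∈ vs ℓ, v ∈ T
            · rw [if_pos h, abs_abs]
              exact hψ j ω hj1 ℓ g1 h g2
            · rw [if_neg h, abs_zero]
              exact ha0 j
          · rw [one_mul]
            have := Real.add_one_le_exp (((BL (gp ⌈ρ / 2 ^ j⌉ z) (2 * (⌈ρ / 2 ^ j⌉ : ℝ))
              (1 / 8 * (2 * (⌈ρ / 2 ^ j⌉ : ℝ))) ω).ncard : ℝ))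
            linarith
      _ = a j * ∫ ω, Real.exp (1 * ((BL (gp ⌈ρ / 2 ^ j⌉ z) (2 * (⌈ρ / 2 ^ j⌉ : ℝ))
            (1 / 8 * (2 * (⌈ρ / 2 ^ j⌉ : ℝ))) ω).ncard : ℝ)) ∂P := integral_const_mul _ _
      _ ≤ a j * M := mul_le_mul_of_nonneg_left h2 (ha0 j)
  simp only [hsum, hdec]
  rw [integral_finsetSum _ fun j _ => integrable_finsetSum _ fun z _ => Fd.intN (fd_YY T ρ _ j z)]
  have hj : ∀ j ∈ Finset.range J, ∫ ω, ∑ z ∈ cel4 T ⌈ρ / 2 ^ j⌉, YY T ρ ψ' j z ω ∂P ≤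
      4 * M * β * (1 / 2) ^ j := by
    intro j hj
    have hj := Finset.mem_range.1 hj
    rw [integral_finsetSum _ fun z _ => Fd.intN (fd_YY T ρ _ j z)]
    calc ∑ z ∈ cel4 T ⌈ρ / 2 ^ j⌉, ∫ ω, YY T ρ ψ' j z ω ∂P
        ≤ ∑ _z ∈ cel4 T ⌈ρ / 2 ^ j⌉, a j * M := Finset.sum_le_sum fun z _ => hY j hj z
      _ = ((cel4 T ⌈ρ / 2 ^ j⌉).card : ℝ) * (a j * M) := by
          rw [Finset.sum_const, nsmul_eq_mul]
      _ ≤ (4 * ((cel T ⌈ρ / 2 ^ j⌉).card : ℝ)) * (a j * M) :=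
          mul_le_mul_of_nonneg_right (by exact_mod_cast card_cel4 T _)
            (mul_nonneg (ha0 j) hM0)
      _ = 4 * M * (a j * ((cel T ⌈ρ / 2 ^ j⌉).card : ℝ)) := by ring
      _ ≤ 4 * M * (β * (1 / 2) ^ j) := mul_le_mul_of_nonneg_left (ha2 j (hJ1 j hj)) (by positivity)
      _ = _ := by ring
  calc _ ≤ ∑ j ∈ Finset.range J, 4 * M * β * (1 / 2) ^ j := Finset.sum_le_sum hj
    _ = 4 * M * β * (2 * ∑ j ∈ Finset.range J, ((1 : ℝ) / 2) ^ (j + 1)) := by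
        rw [← Finset.mul_sum]
        congr 1
        rw [Finset.mul_sum]
        refine Finset.sum_congr rfl fun j _ => ?_
        rw [pow_succ]; ring
    _ ≤ 4 * M * β * (2 * 1) :=
        mul_le_mul_of_nonneg_left (mul_le_mul_of_nonneg_left (H562.geom_half J) (by norm_num))
          (by positivity)
    _ = 8 * M * β := by ring

end Vale.Agent.P167.H662.L
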