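import Vale.Agent.P167.H662.L.Lay8
import Vale.Agent.P167.H542.Q.AsmL
import Vale.Agent.P167.H825.Q.BdQ
import Vale.Agent.P167.H199.QCut
import Vale.Agent.P167.H199.QTwo
import Vale.Agent.P167.K8.RswFin

/-!
# P167, general `q`, block Q-LAYER: assembly, first moments of the functionals with Dobrushin boundary
conditions, from the output of block 2A and (L-MOM)
-/

namespace Vale.Agent.P167.H662.L

open MeasureTheory Filter
open Vale.Agent.P167 Vale.Agent.P167.FKA Vale.Agent.P167.FK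
open Vale.Agent.P167.H519 (IsLim)
open Vale.Agent.P167.H825 (Box)
open Vale.Agent.P167.H825.Q
open Vale.Agent.P167.H542.Q (BD)
open Vale.Agent.P167.H718 (Dob)

variable {θ β : ℝ}

theorem one_le_q (h0 : 0 < θ) (h1 : θ ≤ Real.pi / 3) : 1 ≤ 2 * Real.cos θ := by
  have : Real.cos (Real.pi / 3) ≤ Real.cos θ :=
    Real.cos_le_cos_of_nonneg_of_le_pi h0.le (by linarith [Real.pi_pos]) h1
  rw [Real.cos_pi_div_three] at this
  linarith

theorem rsw_q (h0 : 0 < θ) (h1 : θ ≤ Real.pi / 3) : RSW (2 * Real.cos θ) := K8.k_rsw θ h0.le h1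

/-- **(MOM)** for every Dobrushin family with the base site of `S`. -/
theorem mom_BD (hmom : S_momF) (h0 : 0 < θ) (h1 : θ ≤ Real.pi / 3)
    (hβ : Real.cos (θ / 2 + β) = Real.sin θ) {S : CA.Dat} (X : BD S θ β)
    (hp : ∀ᶠ n in X.L, X.q n 0 = S.b n) {GP : Box → Prop}
    (hGP : ∀ x ∈ S.P, ∃ b : Box, b.Ok S.Q ∧ GP b ∧ x ∈ H638.L.obox b)
    (hA : TwoA (2 / (Real.pi - θ)) S X.L GP
      fun n f => ((X.famB h0 h1 hβ).Vc n fun z => (f z : ℂ)).re) :
    (X.famB h0 h1 hβ).MOM := by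
  obtain ⟨P, hP⟩ := exists_isLim (one_le_q h0 h1) (rsw_q h0 h1)
  exact X.mom h0 h1 hβ hP (rsw_q h0 h1) hp (s_layF (one_le_q h0 h1) (rsw_q h0 h1) hP) H199.l_cut
    H199.l_two hmom hGP hA

/-- **(MOM)** for helper825's data, any outside configurations. -/
theorem mom_bdG (h2 : S2aQq θ β) (hmom : S_momF) (h0 : 0 < θ) (h1 : θ ≤ Real.pi / 3)
    (hβ : Real.cos (θ / 2 + β) = Real.sin θ) (S : CA.Dat) {bc : Bc} (hbc : bc.In S.l)
    {L : Filter ℕ} (hL : L ≤ atTop) (hc : L.IsCountablyGenerated) {η : ℕ → Cfg}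
    (hη : ∀ᶠ n in L, Dob (η n) (S.D n) (qS S n) (kS S bc n)) :
    ((bdG S θ β bc hbc L hL hc η hη).famB h0 h1 hβ).MOM :=
  mom_BD hmom h0 h1 hβ _
    (hL ((eventually_gt_atTop 0).mono fun _ hn => qS_zero S hn))
    (fun _ hx => exists_box S bc hx) (twoA_bdG h2 h0 h1 hβ S hbc hL hc hη)

/-- **(MOM)** for helper825's data. -/
theorem mom_bdQ (h2 : S2aQq θ β) (hmom : S_momF) (h0 : 0 < θ) (h1 : θ ≤ Real.pi / 3)
    (hβ : Real.cos (θ / 2 + β) = Real.sin θ) (S : CA.Dat) {bc : Bc} (hbc : bc.In S.l)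
    {L : Filter ℕ} (hL : L ≤ atTop) (hc : L.IsCountablyGenerated) :
    ((bdQ S θ β bc hbc L hL hc).famB h0 h1 hβ).MOM :=
  mom_bdG h2 hmom h0 h1 hβ S hbc hL hc (hL (dob_qS S bc))

end Vale.Agent.P167.H662.L
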