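import Vale.Agent.P167.H662.L.Asm
import Vale.Agent.P167.H980.Q.Mom980c

/-!
# P167, general `q`, block Q-LAYER: first moments of the functionals with Dobrushin boundary conditions,
from the output of block 2A
-/

namespace Vale.Agent.P167.H662.L

open MeasureTheory Filter
open Vale.Agent.P167 Vale.Agent.P167.FKA Vale.Agent.P167.FK
open Vale.Agent.P167.H519 (IsLim)
open Vale.Agent.P167.H825 (Box)
open Vale.Agent.P167.H825.Q
open Vale.Agent.P167.H542.Q (BD)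
open Vale.Agent.P167.H718 (Dob)

variable {θ β : ℝ}

/-- **(MOM)** for every Dobrushin family with the base site of `S`. -/
theorem momF_BD (h0 : 0 < θ) (h1 : θ ≤ Real.pi / 3)
    (hβ : Real.cos (θ / 2 + β) = Real.sin θ) {S : CA.Dat} (X : BD S θ β)
    (hp : ∀ᶠ n in X.L, X.q n 0 = S.b n) {GP : Box → Prop}
    (hGP : ∀ x ∈ S.P, ∃ b : Box, b.Ok S.Q ∧ GP b ∧ x ∈ H638.L.obox b)
    (hA : TwoA (2 / (Real.pi - θ)) S X.L GP
      fun n f => ((X.famB h0 h1 hβ).Vc n fun z => (f z : ℂ)).re) :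
    (X.famB h0 h1 hβ).MOM := by
  obtain ⟨P, hP⟩ := exists_isLim (one_le_q h0 h1) (rsw_q h0 h1)
  have hL : (X.famB h0 h1 hβ).L ≤ atTop := X.le
  have hlay := s_layF (one_le_q h0 h1) (rsw_q h0 h1) hP
  have hc := H199.l_cut S P _ _ hL hlay (X.lawV h0 h1 hβ hP hp)
  have h2 := H199.l_two (2 / (Real.pi - θ)) S _ GP _ hL hc hA
  exact H980.Q.l_mom GP hGP h2 (H980.Q.famB_M2F X h0 h1 hβ (rsw_q h0 h1))

/-- **(MOM)** for helper825's data, any outside configurations with Dobrushin boundary conditions. -/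
theorem momF_bdG (h2 : S2aQq θ β) (h0 : 0 < θ) (h1 : θ ≤ Real.pi / 3)
    (hβ : Real.cos (θ / 2 + β) = Real.sin θ) (S : CA.Dat) {bc : Bc} (hbc : bc.In S.l)
    {L : Filter ℕ} (hL : L ≤ atTop) (hc : L.IsCountablyGenerated) {η : ℕ → Cfg}
    (hη : ∀ᶠ n in L, Dob (η n) (S.D n) (qS S n) (kS S bc n)) :
    ((bdG S θ β bc hbc L hL hc η hη).famB h0 h1 hβ).MOM :=
  momF_BD h0 h1 hβ _
    (hL ((eventually_gt_atTop 0).mono fun _ hn => qS_zero S hn))
    (fun _ hx => exists_box S bc hx) (twoA_bdG h2 h0 h1 hβ S hbc hL hc hη)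

/-- **(MOM)** for helper825's data. -/
theorem momF_bdQ (h2 : S2aQq θ β) (h0 : 0 < θ) (h1 : θ ≤ Real.pi / 3)
    (hβ : Real.cos (θ / 2 + β) = Real.sin θ) (S : CA.Dat) {bc : Bc} (hbc : bc.In S.l)
    {L : Filter ℕ} (hL : L ≤ atTop) (hc : L.IsCountablyGenerated) :
    ((bdQ S θ β bc hbc L hL hc).famB h0 h1 hβ).MOM :=
  momF_bdG h2 h0 h1 hβ S hbc hL hc (hL (dob_qS S bc))

end Vale.Agent.P167.H662.L
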