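import Vale.Agent.P167.H662.L.LDefs

/-!
# P167, general `q`, block Q-LAYER, L-EM: sums over scales, super-boxes and boxes with general weights
-/

namespace Vale.Agent.P167.H662.L

open Finset Filter Topology MeasureTheory Vale.Agent.P167.FK
open Vale.Agent.P167.FKA (Loc Ind ArmDec)
open Vale.Agent.P167.H562 (Em Em_mono Em_holder single)
open Vale.Agent.P167.H562.GL
open Vale.Agent.P167.H562.QM

/-- One super-box, general weights. -/
theorem superW {P ν : Measure Cfg} [IsProbabilityMeasure ν] {ι : Type*} {S : Finset ι}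
    {X K : ι → Cfg → ℝ} {A : ι → Finset (ℤ × ℤ)} (hXl : ∀ z ∈ S, Loc (A z) (X z))
    (hK : ∀ z ∈ S, Measurable (K z)) (hK0 : ∀ z ∈ S, ∀ ω, 0 ≤ K z ω) {a b : ι → ℝ}
    {s M τ At : ℝ} (hs : 0 ≤ s) (hM0 : 0 ≤ M) (ha0 : ∀ z ∈ S, 0 ≤ a z)
    (hAt : ∑ z ∈ S, a z ≤ At) (hAt0 : 0 < At)
    (hXK : ∀ z ∈ S, ∀ ω, |X z ω| ≤ a z * K z ω) (hτ : |τ| * At ≤ s)
    (hM : ∀ z ∈ S, Em ν (fun ω => (s + 1) * K z ω) ≤ ENNReal.ofReal (Real.exp M))
    (hb : ∀ z ∈ S, |∫ ω, X z ω ∂ν - ∫ ω, X z ω ∂P| ≤ b z) :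
    Em ν (fun ω => τ * ∑ z ∈ S, (X z ω - ∫ x, X z x ∂P)) ≤ ENNReal.ofReal (Real.exp
      (|τ| * ∑ z ∈ S, b z + 2 * Real.exp M * Real.exp ((s + 1) * Real.exp M) *
        (τ ^ 2 * At ^ 2))) := by
  classical
  have hXm : ∀ z ∈ S, Measurable (X z) := fun z hz => Loc.meas (hXl z hz)
  have hXi : ∀ z ∈ S, Integrable (X z) ν := fun z hz => loc_integrable (hXl z hz)
  set S' : Finset ι := S.filter fun z => 0 < a z with hS'
  have hS'S : ∀ z ∈ S', z ∈ S := fun z hz => (Finset.mem_filter.1 hz).1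
  have h1 := single (μ := ν) (X := fun ω => ∑ z ∈ S, X z ω)
    (K := fun ω => ∑ z ∈ S', (a z / At) * K z ω)
    (Finset.measurable_fun_sum _ fun z hz => hXm z hz)
    (Finset.measurable_fun_sum _ fun z hz => (hK z (hS'S z hz)).const_mul _)
    (a := At) (s := s) (t := τ) (M := Real.exp M) hs
    (fun ω => Finset.sum_nonneg fun z hz => mul_nonneg
      (div_nonneg (ha0 z (hS'S z hz)) hAt0.le) (hK0 z (hS'S z hz) ω))
    (fun ω => by
      refine (Finset.abs_sum_le_sum_abs _ _).trans ?_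
      have e1 : At * ∑ z ∈ S', (a z / At) * K z ω = ∑ z ∈ S', a z * K z ω := by
        rw [Finset.mul_sum]
        refine Finset.sum_congr rfl fun z _ => ?_
        field_simp
      have e2 : ∑ z ∈ S', a z * K z ω = ∑ z ∈ S, a z * K z ω := by
        refine Finset.sum_subset (Finset.filter_subset _ _) fun z hz hz' => ?_
        have : a z = 0 := by
          by_contra hne
          exact hz' (Finset.mem_filter.2 ⟨hz, lt_of_le_of_ne (ha0 z hz) (Ne.symm hne)⟩)
        rw [this, zero_mul]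
      rw [e1, e2]
      exact Finset.sum_le_sum fun z hz => hXK z hz ω) hτ
    (by
      have e : (fun ω => (s + 1) * ∑ z ∈ S', (a z / At) * K z ω) =
          fun ω => ∑ z ∈ S', (a z / At) * ((s + 1) * K z ω) := by
        ext ω
        rw [Finset.mul_sum]
        exact Finset.sum_congr rfl fun z _ => by ring
      rw [e]
      have hsum : ∑ z ∈ S', a z / At ≤ 1 := by
        rw [← Finset.sum_div, div_le_one hAt0]
        refine le_trans ?_ hAt
        exact Finset.sum_le_sum_of_subset_of_nonneg (Finset.filter_subset _ _)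
          fun z hz _ => ha0 z hz
      have h2 := Em_holder (μ := ν) S' (Y := fun z ω => (a z / At) * ((s + 1) * K z ω))
        (fun z hz => ((hK z (hS'S z hz)).const_mul _).const_mul _) (θ := fun z => a z / At)
        (B := fun _ => M) (fun z hz => div_pos (Finset.mem_filter.1 hz).2 hAt0) hsum
        (fun z hz => by
          have haz : 0 < a z := (Finset.mem_filter.1 hz).2
          have e2 : (fun ω => (a z / At)⁻¹ * (a z / At * ((s + 1) * K z ω))) =
              fun ω => (s + 1) * K z ω := by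
            ext ω; field_simp
          rw [e2]
          exact hM z (hS'S z hz))
      refine h2.trans (ENNReal.ofReal_le_ofReal (Real.exp_le_exp.2 ?_))
      rw [← Finset.sum_mul]
      nlinarith)
  have h2 : ∀ ω, τ * ∑ z ∈ S, (X z ω - ∫ x, X z x ∂P) ≤
      |τ| * ∑ z ∈ S, b z + τ * (∑ z ∈ S, X z ω - ∫ x, ∑ z ∈ S, X z x ∂ν) := by
    intro ω
    rw [integral_finsetSum _ hXi]
    have e : τ * ∑ z ∈ S, (X z ω - ∫ x, X z x ∂P) =
        τ * ∑ z ∈ S, (∫ x, X z x ∂ν - ∫ x, X z x ∂P) +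
          τ * (∑ z ∈ S, X z ω - ∑ z ∈ S, ∫ x, X z x ∂ν) := by
      rw [← mul_add, Finset.sum_sub_distrib, Finset.sum_sub_distrib]
      ring
    rw [e]
    refine add_le_add ?_ le_rfl
    refine (le_abs_self _).trans ?_
    rw [abs_mul]
    refine mul_le_mul_of_nonneg_left ?_ (abs_nonneg τ)
    refine (Finset.abs_sum_le_sum_abs _ _).trans ?_
    exact Finset.sum_le_sum fun z hz => hb z hz
  refine (Em_const_add h2 h1).trans (le_of_eq ?_)
  rw [← ENNReal.ofReal_mul (Real.exp_pos _).le, ← Real.exp_add]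

/-- Sum over the scales, the super-boxes and the boxes, for a conditioned measure, general weights. -/
theorem multiW {P N : Measure Cfg} [IsProbabilityMeasure N] {ι : Type*} [DecidableEq ι] (J c : ℕ)
    (hc : 0 < c) (W : ℕ → Finset ι) (col : ι → Fin c) (S : ℕ → ι → Finset ι)
    {X K : ℕ → ι → Cfg → ℝ} {A U : ℕ → ι → Finset (ℤ × ℤ)}
    (hXl : ∀ j < J, ∀ w ∈ W j, ∀ z ∈ S j w, Loc (A j z) (X j z))
    (hK : ∀ j < J, ∀ w ∈ W j, ∀ z ∈ S j w, Measurable (K j z))
    (hK0 : ∀ j < J, ∀ w ∈ W j, ∀ z ∈ S j w, ∀ ω, 0 ≤ K j z ω)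
    (hd : ∀ j < J, ∀ w ∈ W j, ∀ w' ∈ W j, w ≠ w' → col w = col w' → ∀ z ∈ S j w,
      Disjoint (A j z) (U j w'))
    {s M β β' Γ Γ' t : ℝ} {a b : ℕ → ι → ℝ} {At Bt g g' : ℕ → ℝ} (hs : 0 ≤ s) (hM0 : 0 ≤ M)
    (ha0 : ∀ j < J, ∀ w ∈ W j, ∀ z ∈ S j w, 0 ≤ a j z)
    (hAt : ∀ j < J, ∀ w ∈ W j, ∑ z ∈ S j w, a j z ≤ At j) (hAt0 : ∀ j < J, 0 < At j)
    (hBt : ∀ j < J, ∀ w ∈ W j, ∑ z ∈ S j w, b j z ≤ Bt j) (hBt0 : ∀ j < J, 0 ≤ Bt j)
    (hXK : ∀ j < J, ∀ w ∈ W j, ∀ z ∈ S j w, ∀ ω, |X j z ω| ≤ a j z * K j z ω)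
    (hM : ∀ j < J, ∀ w ∈ W j, ∀ z ∈ S j w, ∀ ν, Nu N ν (U j w) →
      Em ν (fun ω => (s + 1) * K j z ω) ≤ ENNReal.ofReal (Real.exp M))
    (hb : ∀ j < J, ∀ w ∈ W j, ∀ z ∈ S j w, ∀ ν, Nu N ν (U j w) →
      |∫ ω, X j z ω ∂ν - ∫ ω, X j z ω ∂P| ≤ b j z)
    (ht : ∀ j < J, 4 * c * (4 / 3) ^ j * |t| * At j ≤ s)
    (hWA : ∀ j < J, ((W j).card : ℝ) * (At j) ^ 2 * (4 / 3) ^ j ≤ β * g j)
    (hWB : ∀ j < J, ((W j).card : ℝ) * Bt j ≤ β' * g' j)
    (hβ : 0 ≤ β) (hβ' : 0 ≤ β')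
    (hg : ∑ j ∈ Finset.range J, g j ≤ Γ) (hg' : ∑ j ∈ Finset.range J, g' j ≤ Γ') :
    Em N (fun ω => t * ∑ j ∈ Finset.range J, ∑ w ∈ W j, ∑ z ∈ S j w,
      (X j z ω - ∫ x, X j z x ∂P)) ≤ ENNReal.ofReal (Real.exp (c * |t| * (β' * Γ') +
        4 * (2 * Real.exp M * Real.exp ((s + 1) * Real.exp M)) * c ^ 2 * t ^ 2 * (β * Γ))) := by
  classical
  set G : ℝ := 2 * Real.exp M * Real.exp ((s + 1) * Real.exp M) with hG
  have hG0 : 0 ≤ G := by positivity
  have hc' : (0 : ℝ) < c := by exact_mod_cast hc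
  let θ : ℕ × Fin c → ℝ := fun p => (1 / 4) * (3 / 4) ^ p.1 / c
  let Y : ℕ × Fin c → Cfg → ℝ := fun p ω => t * ∑ w ∈ (W p.1).filter (fun w => col w = p.2),
    ∑ z ∈ S p.1 w, (X p.1 z ω - ∫ x, X p.1 z x ∂P)
  let E : ℕ × Fin c → ℝ := fun p => 4 * c * (4 / 3) ^ p.1 * |t| * (β' * g' p.1) +
    16 * G * c ^ 2 * (4 / 3) ^ p.1 * t ^ 2 * (β * g p.1)
  have hθ : ∀ p, 0 < θ p := fun p => by positivity
  have h34 : ∑ j ∈ Finset.range J, ((3 : ℝ) / 4) ^ j ≤ 4 := by
    refine (geom_le (by norm_num) (by norm_num) J).trans (by norm_num)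
  have hsum : ∑ p ∈ (Finset.range J) ×ˢ (Finset.univ : Finset (Fin c)), θ p ≤ 1 := by
    rw [Finset.sum_product]
    simp only [θ, Finset.sum_const, Finset.card_univ, Fintype.card_fin, nsmul_eq_mul]
    calc ∑ j ∈ Finset.range J, (c : ℝ) * (1 / 4 * (3 / 4) ^ j / c)
        = (1 / 4) * ∑ j ∈ Finset.range J, ((3 : ℝ) / 4) ^ j := by
          rw [Finset.mul_sum]
          exact Finset.sum_congr rfl fun j _ => by field_simp
      _ ≤ 1 := by linarith
  have hYm : ∀ p ∈ (Finset.range J) ×ˢ (Finset.univ : Finset (Fin c)), Measurable (Y p) := by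
    intro p hp
    have hj : p.1 < J := by simpa using (Finset.mem_product.1 hp).1
    refine Measurable.const_mul ?_ _
    refine Finset.measurable_fun_sum _ fun w hw => Finset.measurable_fun_sum _ fun z hz => ?_
    exact (Loc.meas (hXl _ hj w (Finset.mem_filter.1 hw).1 z hz)).sub measurable_const
  have hB : ∀ p ∈ (Finset.range J) ×ˢ (Finset.univ : Finset (Fin c)),
      Em N (fun ω => (θ p)⁻¹ * Y p ω) ≤ ENNReal.ofReal (Real.exp (E p)) := by
    rintro ⟨j, k⟩ hp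
    have hj : j < J := by simpa using (Finset.mem_product.1 hp).1
    set τ : ℝ := 4 * c * (4 / 3) ^ j * t with hτ
    have e1 : (fun ω => (θ (j, k))⁻¹ * Y (j, k) ω) =
        fun ω => ∑ w ∈ (W j).filter (fun w => col w = k),
          (τ * ∑ z ∈ S j w, (X j z ω - ∫ x, X j z x ∂P)) := by
      ext ω
      simp only [θ, Y]
      rw [← Finset.mul_sum, ← mul_assoc]
      congr 1
      have : ((4 : ℝ) / 3) ^ j = ((3 / 4) ^ j)⁻¹ := by rw [← inv_pow]; norm_num
      rw [hτ, inv_div, this]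
      field_simp
    rw [e1]
    have habs : |τ| = 4 * c * (4 / 3) ^ j * |t| := by
      rw [hτ, abs_mul, abs_of_nonneg (by positivity)]
    have hτs : |τ| * At j ≤ s := by
      rw [habs]
      exact ht j hj
    have h2 := prod_nu (P := N) ((W j).filter (fun w => col w = k))
      (Y := fun w ω => τ * ∑ z ∈ S j w, (X j z ω - ∫ x, X j z x ∂P))
      (A := fun w => (S j w).biUnion (A j)) (U := U j)
      (β := |τ| * Bt j + G * (τ ^ 2 * At j ^ 2))
      (fun w hw ω ω' hω => by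
        simp only
        congr 1
        refine Finset.sum_congr rfl fun z hz => ?_
        rw [hXl j hj w (Finset.mem_filter.1 hw).1 z hz ω ω' fun v hv =>
          hω v (Finset.mem_biUnion.2 ⟨z, hz, hv⟩)])
      (fun w hw w' hw' hne => by
        rw [Finset.disjoint_biUnion_left]
        intro z hz
        rw [Finset.mem_filter] at hw hw'
        exact hd j hj w hw.1 w' hw'.1 hne (hw.2.trans hw'.2.symm) z hz)
      (fun w hw ν hν => by
        have hw1 := (Finset.mem_filter.1 hw).1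
        have hνp := hν.prob
        refine (superW (P := P) (fun z hz => hXl j hj w hw1 z hz) (fun z hz => hK j hj w hw1 z hz)
          (fun z hz => hK0 j hj w hw1 z hz) hs hM0 (fun z hz => ha0 j hj w hw1 z hz)
          (hAt j hj w hw1) (hAt0 j hj)
          (fun z hz => hXK j hj w hw1 z hz) hτs (fun z hz => hM j hj w hw1 z hz ν hν)
          (fun z hz => hb j hj w hw1 z hz ν hν)).trans ?_
        refine ENNReal.ofReal_le_ofReal (Real.exp_le_exp.2 ?_)
        exact add_le_add (mul_le_mul_of_nonneg_left (hBt j hj w hw1) (abs_nonneg _)) le_rfl)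
    refine h2.trans (ENNReal.ofReal_le_ofReal (Real.exp_le_exp.2 ?_))
    have h3 : (((W j).filter (fun w => col w = k)).card : ℝ) ≤ ((W j).card : ℝ) := by
      exact_mod_cast Finset.card_filter_le _ _
    have h4 : 0 ≤ |τ| * Bt j + G * (τ ^ 2 * At j ^ 2) := by
      have := hBt0 j hj
      positivity
    refine (mul_le_mul_of_nonneg_right h3 h4).trans ?_
    have h5 := hWA j hj
    have h6 := hWB j hj
    have e2 : ((W j).card : ℝ) * (|τ| * Bt j + G * (τ ^ 2 * At j ^ 2)) =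
        4 * c * (4 / 3) ^ j * |t| * (((W j).card : ℝ) * Bt j) +
          16 * G * c ^ 2 * (4 / 3) ^ j * t ^ 2 * (((W j).card : ℝ) * (At j) ^ 2 * (4 / 3) ^ j) := by
      rw [habs, hτ]
      ring
    rw [e2]
    exact add_le_add (mul_le_mul_of_nonneg_left h6 (by positivity))
      (mul_le_mul_of_nonneg_left h5 (by positivity))
  have hfin := Em_holder (μ := N) ((Finset.range J) ×ˢ (Finset.univ : Finset (Fin c))) hYm
    (fun p _ => hθ p) hsum hB
  have e5 : (fun ω => t * ∑ j ∈ Finset.range J, ∑ w ∈ W j, ∑ z ∈ S j w,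
      (X j z ω - ∫ x, X j z x ∂P)) =
      fun ω => ∑ p ∈ (Finset.range J) ×ˢ (Finset.univ : Finset (Fin c)), Y p ω := by
    ext ω
    rw [Finset.sum_product]
    simp only [Y]
    rw [Finset.mul_sum]
    refine Finset.sum_congr rfl fun j _ => ?_
    rw [← Finset.mul_sum]
    congr 1
    exact (Finset.sum_fiberwise (W j) col _).symm
  rw [e5]
  refine le_trans hfin (ENNReal.ofReal_le_ofReal (Real.exp_le_exp.2 ?_))
  rw [Finset.sum_product]
  have e6 : ∀ j ∈ Finset.range J, ∑ k : Fin c, θ (j, k) * E (j, k) =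
      c * |t| * (β' * g' j) + 4 * G * c ^ 2 * t ^ 2 * (β * g j) := by
    intro j _
    simp only [θ, E, Finset.sum_const, Finset.card_univ, Fintype.card_fin, nsmul_eq_mul]
    have e1 : ((3 : ℝ) / 4) ^ j * (4 / 3) ^ j = 1 := by rw [← mul_pow]; norm_num
    have e3 : (c : ℝ) * (1 / 4 * (3 / 4) ^ j / c *
        (4 * c * (4 / 3) ^ j * |t| * (β' * g' j) + 16 * G * c ^ 2 * (4 / 3) ^ j * t ^ 2 *
          (β * g j))) =
        1 / 4 * (3 / 4) ^ j *
        (4 * c * (4 / 3) ^ j * |t| * (β' * g' j) + 16 * G * c ^ 2 * (4 / 3) ^ j * t ^ 2 *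
          (β * g j)) := by
      field_simp
    rw [e3]
    linear_combination (c * |t| * (β' * g' j) + 4 * G * c ^ 2 * t ^ 2 * (β * g j)) * e1
  rw [Finset.sum_congr rfl e6, Finset.sum_add_distrib, ← Finset.mul_sum, ← Finset.mul_sum,
    ← Finset.mul_sum, ← Finset.mul_sum]
  refine add_le_add ?_ ?_
  · exact mul_le_mul_of_nonneg_left (mul_le_mul_of_nonneg_left hg' hβ') (by positivity)
  · exact mul_le_mul_of_nonneg_left (mul_le_mul_of_nonneg_left hg hβ) (by positivity)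

end Vale.Agent.P167.H662.L
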