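import Vale.Agent.P167.H542.Q.Mean
import Vale.Agent.P167.H542.Q.Pc
import Vale.Agent.P167.H562.Q.SM4
import Vale.Agent.P167.H638.L13
import Vale.Agent.P167.CAQ.Defs

/-!
# P167, general `q`, block Q-LAYER: definitions and statements of the sub-blocks

Pieces have phases `th` (helper542's `Phs m c D th`), the bulk is helper542's `Geo D p K δ`, the laws are
helper562's conditioned measures `Nu P ν D`; charges are real. Strips: helper638's `Cnt`, `CelB`, `dvf`.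
-/

namespace Vale.Agent.P167.H662.L

open Finset Filter Topology MeasureTheory
open Vale.Agent.P167 Vale.Agent.P167.BR
open Vale.Agent.P167.H542 (Geo Nr)
open Vale.Agent.P167.H542.Q (Phs mak)
open Vale.Agent.P167.H562 (Em)
open Vale.Agent.P167.H562.GL (Nu CrossP)
open Vale.Agent.P167.H562.QM (CrossSP)
open Vale.Agent.P167.H562.SML (smf)
open Vale.Agent.P167.FKA (ArmDec)
open Vale.Agent.P167.H519 (IsLim)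
open Vale.Agent.P167.H638.L (Cnt CelB cel dvf bigV)

/-- The inputs on the infinite-volume measure. -/
structure Inp (q al Ca : ℝ) (P : Measure Cfg) : Prop where
  one : 1 ≤ q
  al0 : 0 < al
  Ca0 : 0 < Ca
  arm : ArmDec q al Ca
  lim : IsLim q P
  crs : CrossP P
  crsS : CrossSP P

/-- The weight of a piece with phase `θ` and mass `t`. -/
noncomputable def wR (θ t : ℝ) : ℝ := Real.cos (θ + t) / Real.cos θ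

/-- The functional of a real charge. -/
noncomputable def XR (th : Finset Ed → ℝ) (D : Finset (ℤ × ℤ)) (p : ℤ × ℤ) (f : ℤ × ℤ → ℝ)
    (ω : Cfg) : ℝ := ∏ A ∈ pcs ω D, wR (th A) (mass D p f A)

/-- The logarithm of the weight of a loop. -/
noncomputable def lwm (m t : ℝ) : ℝ := Real.log (wR m t)

/-- The logarithm of the ratio of the weights of the small loops near `T`, charges `g + η` and `g`. -/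
noncomputable def SfQ (m : ℝ) (T : Finset (ℤ × ℤ)) (g η : ℤ × ℤ → ℝ) (d : ℝ) (ω : Cfg) : ℝ :=
  ∑ ℓ ∈ smf T d ω, (lwm m (G g ℓ + G η ℓ) - lwm m (G g ℓ))

/-- (L-PT) The pointwise bound. Law free; model: `H638.L.XD_sub` (L7) and `H542.Q.prod_le`. -/
def S_pt : Prop :=
  ∀ (m c : ℝ) (D Z T : Finset (ℤ × ℤ)) (p : ℤ × ℤ) (K : Set (ℤ × ℤ)) (δ d : ℝ)
    (th : Finset Ed → ℝ) (g η : ℤ × ℤ → ℝ) (ω : Cfg), Phs m c D th → Geo D p K δ → 0 ≤ d →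
    d + 1 ≤ δ → (∀ z ∉ K, g z = 0) → (∀ z ∉ K, η z = 0) → ∑ z ∈ sites D, g z = 0 →
    ∑ z ∈ sites D, η z = 0 → (∃ z ∈ K, ∃ z' ∈ K, 2 * d ≤ (nm (z - z') : ℝ)) →
    (∀ ℓ, IsLoop ω ℓ → Small d ℓ → |G g ℓ| + |G η ℓ| ≤ 1 / 10) →
    (∀ ℓ, IsLoop ω ℓ → Small d ℓ → G g ℓ ≠ 0 → ∃ v ∈ vs ℓ, v ∈ Z) →
    (∀ ℓ, IsLoop ω ℓ → Small d ℓ → G η ℓ ≠ 0 → ∃ v ∈ vs ℓ, v ∈ T) →
    |XR th D p (fun z => g z + η z) ω - XR th D p g ω| ≤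
      (Real.exp (SfQ m Z (fun _ => 0) g d ω) * (c⁻¹) ^ (mak K d D ω).card) *
        (|Real.exp (SfQ m T g η d ω) - 1| + 2 * √(bigV D p η d ω))

/-- (L-SUB) The statistic at two scales. Law free; model: `H638.L.Sf_sub` (L8). -/
def S_sub : Prop :=
  ∀ (m : ℝ) (D T : Finset (ℤ × ℤ)) (p : ℤ × ℤ) (K : Set (ℤ × ℤ)) (δ d d' : ℝ)
    (g η : ℤ × ℤ → ℝ) (ω : Cfg), 0 ≤ m → m ≤ Real.pi / 3 → Geo D p K δ → 0 ≤ d → d + 1 ≤ δ →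
    d' ≤ d → (∀ z ∉ K, η z = 0) → ∑ z ∈ sites D, η z = 0 →
    (∃ z ∈ K, ∃ z' ∈ K, 2 * d ≤ (nm (z - z') : ℝ)) →
    (∀ ℓ, IsLoop ω ℓ → Small d ℓ → |G g ℓ| + |G η ℓ| ≤ 1 / 10) →
    |SfQ m T g η d ω - SfQ m T g η d' ω| ≤ 4 * bigV D p η d' ω

/-- Bound for the contribution of a loop by the charge near it. -/
def Mb (T : Finset (ℤ × ℤ)) (b d0 : ℝ) (φ : Finset Ed → ℝ) : Prop :=
  ∀ (ω : Cfg) (ℓ : Finset Ed) (r : ℤ), IsLoop ω ℓ → 1 ≤ r → (r : ℝ) ≤ d0 → Small r ℓ →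
    ∀ v ∈ vs ℓ, |φ ℓ| ≤ b * ((T.filter fun z => nm (z - v) ≤ r).card : ℝ)

/-- (L-EM) Exponential moments of the statistics of a strip, conditioned measures (helper662). -/
def S_em (P : Measure Cfg) : Prop := ∃ c C α : ℝ, 0 < c ∧ 0 ≤ C ∧ 0 < α ∧
  ∀ (κ κ₁ n h B Q t : ℝ) (T U : Finset (ℤ × ℤ)) (ν : Measure Cfg) (φ : Finset Ed → ℝ),
    0 < κ → κ ≤ κ₁ → 16 * κ₁ ≤ 1 → 1 ≤ κ * n → 0 < h → 0 < B → 0 < Q → Cnt T Q h →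
    CelB T Q n h → (∀ u ∈ T, ∀ v, (nm (v - u) : ℝ) ≤ 64 * κ₁ * n → v ∈ U) → Nu P ν U →
    Mb T (B / (h * n)) (2 * (κ * n)) φ → B * Q * κ₁ * |t| ≤ c →
    Em ν (fun ω => t * (∑ ℓ ∈ smf T (κ * n) ω, φ ℓ -
      ∫ ω', ∑ ℓ ∈ smf T (κ * n) ω', φ ℓ ∂P)) ≤
      ENNReal.ofReal (Real.exp (C * Q * (B * Q) * ((κ / κ₁) ^ α * |t| + B * Q * κ₁ * t ^ 2)))

/-- (L-ABS) First absolute moments, infinite-volume measure. Model: `H638.L.abs_T` (L2). -/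
def S_abs (P : Measure Cfg) : Prop := ∃ C : ℝ, 0 ≤ C ∧ ∀ (T : Finset (ℤ × ℤ)) (ρ : ℝ)
    (ψ : Finset Ed → ℝ) (a : ℕ → ℝ) (β : ℝ), 1 ≤ ρ → 0 ≤ β → (∀ j, 0 ≤ a j) →
    (∀ (j : ℕ) (ω : Cfg), 1 ≤ ρ / 2 ^ j → ∀ ℓ, IsLoop ω ℓ → (∃ v ∈ vs ℓ, v ∈ T) →
      Small (ρ / 2 ^ j) ℓ → |ψ ℓ| ≤ a j) →
    (∀ j, 1 ≤ ρ / 2 ^ j → a j * ((cel T ⌈ρ / 2 ^ j⌉).card : ℝ) ≤ β * (1 / 2) ^ j) →
    ∫ ω, ∑ ℓ ∈ smf T ρ ω, |ψ ℓ| ∂P ≤ C * β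

/-- (L-MEAN) The mean of the masses. Model: `H542.Q.mean_GP`. -/
def S_mean (P : Measure Cfg) : Prop := ∀ (T S : Finset (ℤ × ℤ)) (η : ℤ × ℤ → ℝ) (d : ℝ),
    (∀ z ∉ S, η z = 0) → ∑ z ∈ S, η z = 0 →
    (∀ (ω : Cfg) (ℓ : Finset Ed), IsLoop ω ℓ → Small d ℓ → G η ℓ ≠ 0 → ∃ v ∈ vs ℓ, v ∈ T) →
    ∫ ω, ∑ ℓ ∈ smf T d ω, G η ℓ ∂P = 0

/-- (L-BIG) The masses of the macroscopic pieces. Model: `H638.L.int_bigV` (L4). -/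
def S_big (P : Measure Cfg) : Prop := ∃ C α : ℝ, 0 < C ∧ 0 < α ∧
  ∀ (D T : Finset (ℤ × ℤ)) (p : ℤ × ℤ) (c : Ed → ℝ) (h : ℤ) (d m1 m2 : ℝ) (ν : Measure Cfg),
    1 ≤ h → (h : ℝ) ≤ d → (∀ e, c e ≠ 0 → e ∈ eds D) → (∀ e, c e ≠ 0 → hdv e ∈ T) →
    (∀ e, |c e| ≤ m1) → (∀ z, |dvf c z| ≤ m2) →
    (∀ u ∈ T, ∀ v, (nm (v - u) : ℝ) ≤ 16 * d → v ∈ D) → Nu P ν D →
    ∫ ω, bigV D p (dvf c) d ω ∂ν ≤
      C * ((cel T h).card : ℝ) * (h ^ 2 * m2 + h * m1) * ((h : ℝ) / d) ^ α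

/-- (L-MAC) The number of the macroscopic pieces near the bulk. Model: `H638.L.int_Nb` (L7), with
`H562.QM.macro_UA`. -/
def S_mac (P : Measure Cfg) : Prop := ∀ κ R M : ℝ, 0 < κ → 0 ≤ R → 1 ≤ M →
  ∃ C n₀ : ℝ, 0 < C ∧ 0 < n₀ ∧ ∀ n : ℝ, n₀ ≤ n → ∀ (D : Finset (ℤ × ℤ)) (p : ℤ × ℤ)
    (K : Set (ℤ × ℤ)) (δ : ℝ) (ν : Measure Cfg), Geo D p K δ → κ * n + 2 ≤ δ →
    (∀ v ∈ D, (nm v : ℝ) ≤ R * n) → Nu P ν D →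
    ∫ ω, M ^ (mak K (κ * n) D ω).card ∂ν ≤ C

/-- The data of one comparison: a bulk charge `g` and a flow `c` in a strip of width `w n`. -/
structure LayQ (c0 R B Q w n : ℝ) (D T : Finset (ℤ × ℤ)) (p : ℤ × ℤ) (K : Set (ℤ × ℤ))
    (g : ℤ × ℤ → ℝ) (c : Ed → ℝ) : Prop where
  geo : Geo D p K (c0 * n)
  box : ∀ v ∈ D, (nm v : ℝ) ≤ R * n
  wide : ∃ z ∈ K, ∃ z' ∈ K, c0 * n ≤ (nm (z - z') : ℝ)
  gK : ∀ z ∉ K, g z = 0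
  ηK : ∀ z ∉ K, dvf c z = 0
  totg : ∑ z ∈ sites D, g z = 0
  gle : ∀ z, |g z| ≤ B / n ^ 2
  cD : ∀ e, c e ≠ 0 → e ∈ eds D
  cT : ∀ e, c e ≠ 0 → hdv e ∈ T
  ηT : ∀ z, dvf c z ≠ 0 → z ∈ T
  deep : ∀ u ∈ T, ∀ v, (nm (v - u) : ℝ) ≤ c0 * n → v ∈ D
  cle : ∀ e, |c e| ≤ B / n
  ηle : ∀ z, |dvf c z| ≤ B / (w * n ^ 2)
  cnt : Cnt T Q (w * n)
  celb : CelB T Q n (w * n)

/-- (L-LAY) **The layer theorem.** Model: `H638.L.layer` (L9, L10). -/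
def S_lay (P : Measure Cfg) : Prop :=
  ∀ m cc c0 R B Q : ℝ, 0 ≤ m → m ≤ Real.pi / 3 → 0 < cc → 0 < c0 → 0 ≤ R → 0 < B → 0 < Q →
  ∀ ε > 0, ∃ w0 > 0, ∀ w, 0 < w → w < w0 → ∃ n0 : ℝ, ∀ n ≥ n0,
    ∀ (D T : Finset (ℤ × ℤ)) (p : ℤ × ℤ) (K : Set (ℤ × ℤ)) (g : ℤ × ℤ → ℝ) (c : Ed → ℝ)
      (th : Finset Ed → ℝ) (ν : Measure Cfg), Phs m cc D th →
      LayQ c0 R B Q w n D T p K g c → Nu P ν D →
      ∫ ω, |XR th D p (fun z => g z + dvf c z) ω - XR th D p g ω| ∂ν ≤ ε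

end Vale.Agent.P167.H662.L
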