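import Vale.Agent.P167.H662.L.LDefs
import Vale.Agent.P167.H542.Q.Mm

/-!
# P167, general `q`, block Q-LAYER, L-LAY: logarithms of the weights, integrals for conditioned measures
-/

namespace Vale.Agent.P167.H662.L

open Finset Filter Topology MeasureTheory
open Vale.Agent.P167 Vale.Agent.P167.BR
open Vale.Agent.P167.H542 (Geo Nr)
open Vale.Agent.P167.H542.Q (Phs mak mak_loc)
open Vale.Agent.P167.H562 (Em)
open Vale.Agent.P167.H562.GL (Nu loc_integrable)
open Vale.Agent.P167.H562.SML (smf smf_loc')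
open Vale.Agent.P167.H167 (Fd fd_pcs)
open Vale.Agent.P167.H638.L (bigV fd_bigV bigV_nonneg)

/-! ### The logarithm of the weight of a loop -/

theorem cos_low {m t : ℝ} (h0 : 0 ≤ m) (h1 : m ≤ Real.pi / 3) (ht : |t| ≤ 1 / 10) :
    2 / 5 ≤ Real.cos (m + t) ∧ 1 / 2 ≤ Real.cos m := by
  have h2 : 1 / 2 ≤ Real.cos m := by
    rw [← Real.cos_pi_div_three]
    exact Real.cos_le_cos_of_nonneg_of_le_pi h0 (by linarith [Real.pi_pos]) h1
  refine ⟨?_, h2⟩
  have h3 : |Real.cos (m + t) - Real.cos m| ≤ |t| := by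
    have := Real.abs_cos_sub_cos_le (m + t) m
    simpa using this
  have := (abs_le.1 h3).1
  linarith

theorem wR_pos {m t : ℝ} (h0 : 0 ≤ m) (h1 : m ≤ Real.pi / 3) (ht : |t| ≤ 1 / 10) : 0 < wR m t := by
  obtain ⟨a, b⟩ := cos_low h0 h1 ht
  unfold wR
  exact div_pos (by linarith) (by linarith)

theorem wR_zero {θ : ℝ} (h : Real.cos θ ≠ 0) : wR θ 0 = 1 := by
  unfold wR
  rw [add_zero, div_self h]

theorem hasDerivAt_lwm {m t : ℝ} (h0 : 0 ≤ m) (h1 : m ≤ Real.pi / 3) (ht : |t| ≤ 1 / 10) :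
    HasDerivAt (lwm m) (-(Real.sin (m + t) / Real.cos (m + t))) t := by
  obtain ⟨a, b⟩ := cos_low h0 h1 ht
  have h2 : HasDerivAt (fun t : ℝ => Real.cos (m + t) / Real.cos m)
      (-Real.sin (m + t) / Real.cos m) t := by
    have h2 : HasDerivAt (fun t : ℝ => m + t) 1 t := (hasDerivAt_id t).const_add _
    have h3 := (Real.hasDerivAt_cos (m + t)).comp t h2
    rw [mul_one] at h3
    exact h3.div_const _
  have h3 := h2.log (by
    have : 0 < Real.cos (m + t) := by linarith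
    have : 0 < Real.cos m := by linarith
    positivity)
  have h4 : HasDerivAt (lwm m) (-Real.sin (m + t) / Real.cos m /
      (Real.cos (m + t) / Real.cos m)) t := h3
  convert h4 using 1
  have : Real.cos (m + t) ≠ 0 := by linarith
  have : Real.cos m ≠ 0 := by linarith
  field_simp

theorem tan_bd {m x : ℝ} (h0 : 0 ≤ m) (h1 : m ≤ Real.pi / 3) (hx : |x| ≤ 1 / 10) :
    |-(Real.sin (m + x) / Real.cos (m + x))| ≤ 4 ∧
    |Real.tan m + -(Real.sin (m + x) / Real.cos (m + x))| ≤ 5 * |x| := by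
  obtain ⟨a, b⟩ := cos_low h0 h1 hx
  have hc : (0 : ℝ) < Real.cos (m + x) := by linarith
  have hm : (0 : ℝ) < Real.cos m := by linarith
  constructor
  · rw [abs_neg, abs_div, abs_of_pos hc, div_le_iff₀ hc]
    have := Real.abs_sin_le_one (m + x)
    linarith
  · have e : Real.tan m + -(Real.sin (m + x) / Real.cos (m + x)) =
        -Real.sin x / (Real.cos m * Real.cos (m + x)) := by
      rw [Real.tan_eq_sin_div_cos, eq_div_iff (by positivity)]
      have e2 : Real.sin x = Real.sin ((m + x) - m) := by congr 1; ring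
      rw [e2, Real.sin_sub]
      field_simp
      ring
    rw [e, abs_div, abs_neg, abs_of_pos (by positivity : 0 < Real.cos m * Real.cos (m + x)),
      div_le_iff₀ (by positivity)]
    have h2 : |Real.sin x| ≤ |x| := Real.abs_sin_le_abs
    have h3 : 1 / 5 ≤ Real.cos m * Real.cos (m + x) := by nlinarith
    nlinarith [abs_nonneg x]

theorem lwm_bounds {m t s : ℝ} (h0 : 0 ≤ m) (h1 : m ≤ Real.pi / 3) (h : |t| + |s| ≤ 1 / 10) :
    |lwm m (t + s) - lwm m t| ≤ 4 * |s| ∧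
      |lwm m (t + s) - lwm m t + Real.tan m * s| ≤ 5 * (|t| + |s|) * |s| := by
  set r := |t| + |s| with hr
  have hin : ∀ x ∈ Set.Icc (-r) r, |x| ≤ 1 / 10 := fun x hx => (abs_le.2 hx).trans h
  have ht : t ∈ Set.Icc (-r) r := by
    rw [Set.mem_Icc, ← abs_le]; linarith [abs_nonneg s]
  have hts : t + s ∈ Set.Icc (-r) r := by
    rw [Set.mem_Icc, ← abs_le]; exact abs_add_le t s
  constructor
  · have h1 := Convex.norm_image_sub_le_of_norm_hasDerivWithin_le (f := lwm m)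
      (f' := fun x => -(Real.sin (m + x) / Real.cos (m + x))) (C := 4)
      (fun x hx => (hasDerivAt_lwm h0 h1 (hin x hx)).hasDerivWithinAt)
      (fun x hx => (tan_bd h0 h1 (hin x hx)).1) (convex_Icc (-r) r) ht hts
    simpa only [Real.norm_eq_abs, add_sub_cancel_left] using h1
  · have h1 := Convex.norm_image_sub_le_of_norm_hasDerivWithin_le
      (f := fun x => lwm m x + Real.tan m * x)
      (f' := fun x => -(Real.sin (m + x) / Real.cos (m + x)) + Real.tan m) (C := 5 * r)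
      (fun x hx => by
        have h2 := (hasDerivAt_lwm h0 h1 (hin x hx)).add
          ((hasDerivAt_id x).const_mul (Real.tan m))
        rw [mul_one] at h2
        exact h2.hasDerivWithinAt)
      (fun x hx => by
        rw [Real.norm_eq_abs, add_comm]
        refine (tan_bd h0 h1 (hin x hx)).2.trans ?_
        exact mul_le_mul_of_nonneg_left (abs_le.2 hx) (by norm_num)) (convex_Icc (-r) r) ht hts
    simp only [Real.norm_eq_abs, add_sub_cancel_left] at h1
    have h2 : lwm m (t + s) + Real.tan m * (t + s) - (lwm m t + Real.tan m * t) =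
        lwm m (t + s) - lwm m t + Real.tan m * s := by ring
    rwa [h2] at h1

/-! ### Integrals -/

variable {ν : Measure Cfg}

theorem Fd.intN [IsFiniteMeasure ν] {X : Cfg → ℝ} (h : Fd X) : Integrable X ν := by
  obtain ⟨F, hF⟩ := h
  exact loc_integrable (B := F) fun ω ω' hw => hF ω ω' fun v hv => hw v hv

theorem cs_leN [IsFiniteMeasure ν] {X Y : Cfg → ℝ} (hX : Fd X) (hY : Fd Y) {a b : ℝ}
    (ha : 0 ≤ a) (hb : 0 ≤ b) (h1 : ∫ ω, X ω ^ 2 ∂ν ≤ a ^ 2) (h2 : ∫ ω, Y ω ^ 2 ∂ν ≤ b ^ 2) :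
    |∫ ω, X ω * Y ω ∂ν| ≤ a * b := by
  refine abs_le_of_sq_le_sq ?_ (mul_nonneg ha hb)
  have hcs : (∫ ω, X ω * Y ω ∂ν) ^ 2 ≤ (∫ ω, X ω ^ 2 ∂ν) * ∫ ω, Y ω ^ 2 ∂ν := by
    set a := ∫ ω, X ω ^ 2 ∂ν with ha
    set b := ∫ ω, X ω * Y ω ∂ν with hb
    set c := ∫ ω, Y ω ^ 2 ∂ν with hc
    have h : ∀ t : ℝ, 0 ≤ c * (t * t) + 2 * b * t + a := by
      intro t
      have h1 : 0 ≤ ∫ ω, (X ω + t * Y ω) ^ 2 ∂ν := integral_nonneg fun ω => sq_nonneg _
      have h2 : ∫ ω, (X ω + t * Y ω) ^ 2 ∂ν = a + 2 * t * b + t ^ 2 * c := by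
        have e : ∀ ω, (X ω + t * Y ω) ^ 2 = X ω ^ 2 + (2 * t * (X ω * Y ω) + t ^ 2 * Y ω ^ 2) :=
          fun ω => by ring
        simp only [e]
        rw [integral_add (Fd.intN (hX.pow 2)), integral_add, integral_const_mul, integral_const_mul]
        · ring
        · exact (Fd.intN (hX.mul hY)).const_mul _
        · exact (Fd.intN (hY.pow 2)).const_mul _
        · exact ((Fd.intN (hX.mul hY)).const_mul _).add ((Fd.intN (hY.pow 2)).const_mul _)
      rw [h2] at h1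
      nlinarith
    have := discrim_le_zero h
    rw [discrim] at this
    nlinarith
  calc (∫ ω, X ω * Y ω ∂ν) ^ 2 ≤ (∫ ω, X ω ^ 2 ∂ν) * ∫ ω, Y ω ^ 2 ∂ν := hcs
    _ ≤ a ^ 2 * b ^ 2 := mul_le_mul h1 h2 (integral_nonneg fun ω => sq_nonneg _) (sq_nonneg _)
    _ = (a * b) ^ 2 := by ring

theorem Em_intN [IsFiniteMeasure ν] {S : Cfg → ℝ} (hS : Fd S) {t M : ℝ} (hM : 0 ≤ M)
    (h : Em ν (fun ω => t * S ω) ≤ ENNReal.ofReal M) : ∫ ω, Real.exp (t * S ω) ∂ν ≤ M := by
  have f : Fd (fun ω => Real.exp (t * S ω)) := hS.comp fun x => Real.exp (t * x)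
  rw [H562.Em_eq (Fd.intN f)] at h
  exact (ENNReal.ofReal_le_ofReal_iff hM).1 h

theorem int_exp_subN [IsFiniteMeasure ν] {S : Cfg → ℝ} (hS : Fd S) {s1 e1 : ℝ} (hs1 : 0 ≤ s1)
    (he1 : 0 ≤ e1) (h1 : ∫ ω, |S ω| ∂ν ≤ s1) (h2 : ∫ ω, Real.exp (10 * S ω) ∂ν ≤ e1)
    (h3 : ∫ ω, Real.exp (-10 * S ω) ∂ν ≤ e1) :
    ∫ ω, (Real.exp (S ω) - 1) ^ 4 ∂ν ≤ √s1 * √(10080 * e1) := by
  have f1 : Fd (fun ω => √|S ω|) := hS.comp fun x => √|x|
  have f2 : Fd (fun ω => √|S ω| * |S ω| ^ 3 * Real.exp (4 * |S ω|)) :=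
    hS.comp fun x => √|x| * |x| ^ 3 * Real.exp (4 * |x|)
  have f3 : Fd (fun ω => Real.exp (10 * S ω)) := hS.comp fun x => Real.exp (10 * x)
  have f4 : Fd (fun ω => Real.exp (-10 * S ω)) := hS.comp fun x => Real.exp (-10 * x)
  have key := cs_leN f1 f2 (Real.sqrt_nonneg s1) (Real.sqrt_nonneg (10080 * e1))
    (by
      rw [Real.sq_sqrt hs1]
      refine le_trans (le_of_eq ?_) h1
      refine integral_congr_ae (Filter.Eventually.of_forall fun ω => ?_)
      simp only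
      exact Real.sq_sqrt (abs_nonneg _))
    (by
      rw [Real.sq_sqrt (by positivity)]
      calc ∫ ω, (√|S ω| * |S ω| ^ 3 * Real.exp (4 * |S ω|)) ^ 2 ∂ν
          ≤ ∫ ω, 5040 * (Real.exp (10 * S ω) + Real.exp (-10 * S ω)) ∂ν := by
            refine integral_mono (Fd.intN (f2.pow 2)) (((Fd.intN f3).add (Fd.intN f4)).const_mul _)
              fun ω => ?_
            simp only
            have g1 : (√|S ω| * |S ω| ^ 3 * Real.exp (4 * |S ω|)) ^ 2 =
                |S ω| ^ 7 * Real.exp (8 * |S ω|) := by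
              rw [mul_pow, mul_pow, Real.sq_sqrt (abs_nonneg _), ← pow_mul, ← Real.exp_nat_mul]
              push_cast
              rw [show (2 : ℝ) * (4 * |S ω|) = 8 * |S ω| by ring]
              ring
            have g2 : |S ω| ^ 7 ≤ 5040 * Real.exp |S ω| := by
              have h := Real.pow_div_factorial_le_exp |S ω| (abs_nonneg _) 7
              have h7 : ((Nat.factorial 7 : ℕ) : ℝ) = 5040 := by norm_num [Nat.factorial]
              rw [h7, div_le_iff₀ (by norm_num)] at h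
              linarith
            rw [g1]
            calc |S ω| ^ 7 * Real.exp (8 * |S ω|)
                ≤ 5040 * Real.exp |S ω| * Real.exp (8 * |S ω|) :=
                  mul_le_mul_of_nonneg_right g2 (Real.exp_pos _).le
              _ = 5040 * Real.exp (9 * |S ω|) := by
                  rw [mul_assoc, ← Real.exp_add]; congr 2; ring
              _ ≤ 5040 * Real.exp (10 * |S ω|) := by
                  refine mul_le_mul_of_nonneg_left (Real.exp_le_exp.2 ?_) (by norm_num)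
                  linarith [abs_nonneg (S ω)]
              _ ≤ _ := by
                  refine mul_le_mul_of_nonneg_left ?_ (by norm_num)
                  rcases abs_choice (S ω) with h | h
                  · rw [h]; linarith [Real.exp_pos (-10 * S ω)]
                  · rw [h]
                    have : Real.exp (10 * -S ω) = Real.exp (-10 * S ω) := by congr 1; ring
                    rw [this]; linarith [Real.exp_pos (10 * S ω)]
        _ = 5040 * (∫ ω, Real.exp (10 * S ω) ∂ν + ∫ ω, Real.exp (-10 * S ω) ∂ν) := by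
            rw [integral_const_mul, integral_add (Fd.intN f3) (Fd.intN f4)]
        _ ≤ _ := by linarith)
  refine le_trans ?_ ((le_abs_self _).trans key)
  exact integral_mono (Fd.intN (hS.comp fun x => (Real.exp x - 1) ^ 4)) (Fd.intN (f1.mul f2))
    fun ω => H638.L.exp_sub_one_pow

/-- From exponential moments to the first absolute moment. -/
theorem int_abs_leN [IsFiniteMeasure ν] {S : Cfg → ℝ} (hS : Fd S) {τ M : ℝ} (hτ : 0 < τ)
    (h1 : ∫ ω, Real.exp (τ * S ω) ∂ν ≤ M) (h2 : ∫ ω, Real.exp (-τ * S ω) ∂ν ≤ M) :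
    ∫ ω, |S ω| ∂ν ≤ 2 * M / τ := by
  have f3 : Fd (fun ω => Real.exp (τ * S ω)) := hS.comp fun x => Real.exp (τ * x)
  have f4 : Fd (fun ω => Real.exp (-τ * S ω)) := hS.comp fun x => Real.exp (-τ * x)
  calc ∫ ω, |S ω| ∂ν ≤ ∫ ω, 1 / τ * (Real.exp (τ * S ω) + Real.exp (-τ * S ω)) ∂ν := by
        refine integral_mono (Fd.intN hS.abs) (((Fd.intN f3).add (Fd.intN f4)).const_mul _)
          fun ω => ?_
        simp only
        rw [div_mul_eq_mul_div, le_div_iff₀ hτ, one_mul]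
        rcases abs_choice (S ω) with h | h
        · rw [h]
          have := Real.add_one_le_exp (τ * S ω)
          have := Real.exp_pos (-τ * S ω)
          linarith
        · rw [h]
          have := Real.add_one_le_exp (-τ * S ω)
          have := Real.exp_pos (τ * S ω)
          linarith
    _ = 1 / τ * (∫ ω, Real.exp (τ * S ω) ∂ν + ∫ ω, Real.exp (-τ * S ω) ∂ν) := by
        rw [integral_const_mul, integral_add (Fd.intN f3) (Fd.intN f4)]
    _ ≤ 1 / τ * (M + M) := mul_le_mul_of_nonneg_left (add_le_add h1 h2) (by positivity)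
    _ = _ := by ring

/-! ### Locality -/

theorem fd_XR (th : Finset Ed → ℝ) (D : Finset (ℤ × ℤ)) (p : ℤ × ℤ) (f : ℤ × ℤ → ℝ) :
    Fd (XR th D p f) := by
  classical
  exact fd_pcs D fun s => ∏ A ∈ s, wR (th A) (mass D p f A)

theorem fd_SfQ (m : ℝ) (T : Finset (ℤ × ℤ)) (g η : ℤ × ℤ → ℝ) (d : ℝ) : Fd (SfQ m T g η d) := by
  refine ⟨H562.SML.fat T d, fun ω ω' hw => ?_⟩
  unfold SfQ
  rw [smf_loc' T d fun v hv => hw v (Finset.mem_coe.2 hv)]

theorem fd_mak (K : Set (ℤ × ℤ)) (d : ℝ) (D : Finset (ℤ × ℤ)) :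
    Fd (fun ω => (mak K d D ω).card) :=
  ⟨D, fun ω ω' hw => by
    simp only
    rw [mak_loc K d D fun v hv => hw v (Finset.mem_coe.2 hv)]⟩

/-- **Comparison of the functionals.** -/
theorem combN [IsProbabilityMeasure ν] {X X' S S' V : Cfg → ℝ} {N : Cfg → ℕ} {M : ℝ}
    (hX : Fd X) (hX' : Fd X') (hS : Fd S) (hS' : Fd S') (hV : Fd V) (hN : Fd N) (hM : 0 ≤ M)
    (hV0 : ∀ ω, 0 ≤ V ω)
    (hpt : ∀ ω, |X' ω - X ω| ≤ (Real.exp (S ω) * M ^ N ω) * (|Real.exp (S' ω) - 1| + 2 * √(V ω)))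
    {a1 a2 b1 b2 : ℝ} (ha1 : 0 ≤ a1) (ha2 : 0 ≤ a2) (hb1 : 0 ≤ b1) (hb2 : 0 ≤ b2)
    (h1 : ∫ ω, Real.exp (4 * S ω) ∂ν ≤ a1 ^ 2) (h2 : ∫ ω, (M ^ 4) ^ N ω ∂ν ≤ a2 ^ 2)
    (h3 : ∫ ω, (Real.exp (S' ω) - 1) ^ 4 ∂ν ≤ b1 ^ 2) (h4 : ∫ ω, V ω ∂ν ≤ b2) :
    ∫ ω, |X' ω - X ω| ∂ν ≤ √(a1 * a2) * √(2 * b1 + 8 * b2) := by
  have f1 : Fd (fun ω => Real.exp (S ω) * M ^ N ω) := hS.comp₂ hN fun x n => Real.exp x * M ^ n
  have f2 : Fd (fun ω => |Real.exp (S' ω) - 1| + 2 * √(V ω)) :=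
    hS'.comp₂ hV fun x y => |Real.exp x - 1| + 2 * √y
  have f3 : Fd (fun ω => Real.exp (S ω) ^ 2) := hS.comp fun x => Real.exp x ^ 2
  have f4 : Fd (fun ω => (M ^ 2) ^ N ω) := hN.comp fun n => (M ^ 2) ^ n
  have f5 : Fd (fun ω => (Real.exp (S' ω) - 1) ^ 2) := hS'.comp fun x => (Real.exp x - 1) ^ 2
  have i1 : ∫ ω, (Real.exp (S ω) * M ^ N ω) ^ 2 ∂ν ≤ √(a1 * a2) ^ 2 := by
    rw [Real.sq_sqrt (by positivity)]
    have h := cs_leN f3 f4 ha1 ha2
      (le_trans (le_of_eq (integral_congr_ae (Filter.Eventually.of_forall fun ω => by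
        simp only
        rw [← pow_mul, ← Real.exp_nat_mul]
        norm_num))) h1)
      (le_trans (le_of_eq (integral_congr_ae (Filter.Eventually.of_forall fun ω => by
        simp only
        rw [← pow_mul, mul_comm, pow_mul]
        congr 1
        ring))) h2)
    refine le_trans (le_of_eq ?_) ((le_abs_self _).trans h)
    refine integral_congr_ae (Filter.Eventually.of_forall fun ω => ?_)
    simp only
    rw [mul_pow, ← pow_mul M, mul_comm (N ω) 2, pow_mul M]
  have i2 : ∫ ω, (|Real.exp (S' ω) - 1| + 2 * √(V ω)) ^ 2 ∂ν ≤ √(2 * b1 + 8 * b2) ^ 2 := by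
    rw [Real.sq_sqrt (by positivity)]
    have h := cs_leN f5 (Fd.const (1 : ℝ)) hb1 zero_le_one
      (le_trans (le_of_eq (integral_congr_ae (Filter.Eventually.of_forall fun ω => by
        simp only
        rw [← pow_mul]))) h3) (by simp)
    simp only [mul_one] at h
    calc ∫ ω, (|Real.exp (S' ω) - 1| + 2 * √(V ω)) ^ 2 ∂ν
        ≤ ∫ ω, (2 * (Real.exp (S' ω) - 1) ^ 2 + 8 * V ω) ∂ν := by
          refine integral_mono (Fd.intN (f2.pow 2))
            (((Fd.intN f5).const_mul 2).add ((Fd.intN hV).const_mul 8)) fun ω => ?_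
          simp only
          have h5 : √(V ω) ^ 2 = V ω := Real.sq_sqrt (hV0 ω)
          have h6 : |Real.exp (S' ω) - 1| ^ 2 = (Real.exp (S' ω) - 1) ^ 2 := sq_abs _
          nlinarith [sq_nonneg (|Real.exp (S' ω) - 1| - 2 * √(V ω))]
      _ = 2 * ∫ ω, (Real.exp (S' ω) - 1) ^ 2 ∂ν + 8 * ∫ ω, V ω ∂ν := by
          rw [integral_add ((Fd.intN f5).const_mul 2) ((Fd.intN hV).const_mul 8),
            integral_const_mul, integral_const_mul]
      _ ≤ _ := by
          have := (le_abs_self _).trans h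
          linarith
  have hmain := cs_leN f1 f2 (Real.sqrt_nonneg _) (Real.sqrt_nonneg _) i1 i2
  refine le_trans ?_ ((le_abs_self _).trans hmain)
  exact integral_mono (Fd.intN (hX'.sub hX).abs) (Fd.intN (f1.mul f2)) hpt

end Vale.Agent.P167.H662.L
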