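import Vale.Agent.P167.H662.L.Lay2

/-!
# P167, general `q`, block Q-LAYER, L-LAY: geometry of the bulk and of the strip
-/

namespace Vale.Agent.P167.H662.L

open Finset Filter Topology MeasureTheory
open Vale.Agent.P167 Vale.Agent.P167.BR
open Vale.Agent.P167.H542 (Geo Nr GC GC_re GC_far Chc massC_ofReal mass_near small_near loop_mem_pcs
  nm_hdv_ls)
open Vale.Agent.P167.H562.GL (Nu)
open Vale.Agent.P167.H638.L (Cnt CelB cel dvf bigV mass_dvf_zero tot_dvf cel_box)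

variable {D T : Finset (ℤ × ℤ)} {p : ℤ × ℤ} {K : Set (ℤ × ℤ)} {δ d : ℝ} {ω : Cfg} {ℓ : Finset Ed}
  {g η : ℤ × ℤ → ℝ} {c : Ed → ℝ}

/-- A small loop with a mass comes near the bulk. -/
theorem near_of_G (hG : Geo D p K δ) (hδ : 0 ≤ δ) (hg : ∀ z ∉ K, g z = 0)
    (hw : ∃ z ∈ K, ∃ z' ∈ K, 2 * d ≤ (nm (z - z') : ℝ)) (hl : IsLoop ω ℓ) (hs : Small d ℓ)
    (hne : G g ℓ ≠ 0) : Nr K ℓ := by
  classical
  by_contra hn
  have h1 : ∀ z ∈ K, z ∉ ins ℓ := by
    intro z hz hzi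
    have hW : W ℓ z ≠ 0 := hzi
    obtain ⟨z1, hz1, z2, hz2, h12⟩ := hw
    have hall : ∀ z' ∈ K, z' ∈ ins ℓ := by
      intro z' hz'
      have h2 := H542.pot_const hn (H542.W_pot (D := D) hl) (hG.conn z hz z' hz')
      show W ℓ z' ≠ 0
      rwa [← h2]
    obtain ⟨v, hv⟩ := H45.vs_nonempty hl
    have a1 := H542.near_of_ins hl hs (hall z1 hz1) hv
    have a2 := H542.near_of_ins hl hs (hall z2 hz2) hv
    have a3 : (nm (z1 - z2) : ℝ) ≤ nm (v - z1) + nm (v - z2) := by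
      have h3 : nm (z1 - z2) ≤ nm (z1 - v) + nm (v - z2) := H45.nm_sub_le _ _ _
      rw [H45.nm_sub_comm z1 v] at h3
      exact_mod_cast h3
    linarith
  apply hne
  unfold G
  refine finsum_mem_eq_zero_of_forall_eq_zero fun z hz => ?_
  by_contra hne'
  have h3 : z ∈ K := by
    by_contra hcon
    exact hne' (hg z hcon)
  exact h1 z h3 hz

/-- The squares near the bulk. -/
noncomputable def zoneK (D : Finset (ℤ × ℤ)) (K : Set (ℤ × ℤ)) : Finset (ℤ × ℤ) := by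
  classical exact D.filter fun v => ∃ z ∈ K, nm (v - z) ≤ 1

theorem mem_zoneK {v : ℤ × ℤ} : v ∈ zoneK D K ↔ v ∈ D ∧ ∃ z ∈ K, nm (v - z) ≤ 1 := by
  classical
  unfold zoneK
  rw [Finset.mem_filter]

theorem K_zone (hG : Geo D p K δ) (hδ : 0 ≤ δ) {z : ℤ × ℤ} (hz : z ∈ K) : z ∈ zoneK D K := by
  have h0 : nm (z - z) = 0 := by rw [sub_self]; simp [nm]
  refine mem_zoneK.2 ⟨hG.nbhd z hz z (by rw [h0]; simpa using hδ), z, hz, by rw [h0]; norm_num⟩

theorem K_sites (hG : Geo D p K δ) (hδ : 0 ≤ δ) {z : ℤ × ℤ} (hz : z ∈ K) : z ∈ sites D :=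
  mem_sites.2 ⟨z, (mem_zoneK.1 (K_zone hG hδ hz)).1, Or.inl rfl, Or.inl rfl⟩

/-- Loops with a bulk mass visit the zone. -/
theorem vis_bulk (hG : Geo D p K δ) (hδ : 1 ≤ δ) (hg : ∀ z ∉ K, g z = 0)
    (hw : ∃ z ∈ K, ∃ z' ∈ K, 2 * d ≤ (nm (z - z') : ℝ)) (hl : IsLoop ω ℓ) (hs : Small d ℓ)
    (hne : G g ℓ ≠ 0) : ∃ v ∈ vs ℓ, v ∈ zoneK D K := by
  obtain ⟨e, he, h1, -⟩ := near_of_G hG (by linarith) hg hw hl hs hne
  have h2 := nm_hdv_ls e
  refine ⟨hdv e, Finset.mem_image_of_mem _ he, mem_zoneK.2 ⟨hG.nbhd _ h1 _ ?_, ls e, h1, h2⟩⟩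
  have : (nm (hdv e - ls e) : ℝ) ≤ 1 := by exact_mod_cast h2
  linarith

/-- The mass of a small loop with a mass. -/
theorem mass_of_G (hG : Geo D p K δ) (hδ : d + 1 ≤ δ) (hd : 0 ≤ d) (hg : ∀ z ∉ K, g z = 0)
    (hl : IsLoop ω ℓ) (hs : Small d ℓ) (hn : Nr K ℓ) :
    ℓ ∈ pcs ω D ∧ mass D p g ℓ = G g ℓ := by
  have hin : ∀ e ∈ ℓ, hdv e ∈ D := small_near hG hδ hn hs
  have hD : ∀ v ∈ vs ℓ, v ∈ D := by
    intro v hv
    obtain ⟨e, he, rfl⟩ := Finset.mem_image.1 hv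
    exact hin e he
  refine ⟨loop_mem_pcs hl hD, ?_⟩
  have h1 := mass_near hG (by linarith) hl hD (f := fun z => (g z : ℂ))
    (fun z hz => by rw [hg z hz]; simp)
  rw [massC_ofReal] at h1
  have h2 := congrArg Complex.re h1
  rw [Complex.ofReal_re, GC_re] at h2
  simpa using h2

/-- Loops with a mass of the strip visit the strip. -/
theorem vis_strip (hG : Geo D p K δ) (hδ : d + 1 ≤ δ) (hd : 0 ≤ d) (hη : ∀ z ∉ K, dvf c z = 0)
    (hw : ∃ z ∈ K, ∃ z' ∈ K, 2 * d ≤ (nm (z - z') : ℝ)) (hcD : ∀ e, c e ≠ 0 → e ∈ eds D)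
    (hcT : ∀ e, c e ≠ 0 → hdv e ∈ T) (hl : IsLoop ω ℓ) (hs : Small d ℓ)
    (hne : G (dvf c) ℓ ≠ 0) : ∃ v ∈ vs ℓ, v ∈ T := by
  have hn := near_of_G hG (by linarith) hη hw hl hs hne
  obtain ⟨h1, h2⟩ := mass_of_G hG hδ hd hη hl hs hn
  rw [← h2] at hne
  by_contra hcon
  push Not at hcon
  refine hne (mass_dvf_zero hcD (subset_eds h1) fun e he => ?_)
  by_contra h0
  exact hcon (hdv e) (Finset.mem_image_of_mem _ he) (hcT e h0)

/-- The counting constant of the bulk. -/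
noncomputable def QR (R : ℝ) : ℝ := 9 + 4 * (R + 2) ^ 2

theorem QR_pos (R : ℝ) : 0 < QR R := by unfold QR; positivity

theorem card_box {P : ℝ} (hP : 0 ≤ P) (hT : ∀ v ∈ T, (nm v : ℝ) ≤ P) :
    (T.card : ℝ) ≤ (2 * P + 1) ^ 2 := by
  have hsub : T ⊆ Icc (-⌊P⌋) ⌊P⌋ ×ˢ Icc (-⌊P⌋) ⌊P⌋ := by
    intro v hv
    have h1 : nm v ≤ ⌊P⌋ := Int.le_floor.2 (hT v hv)
    rw [H45.nm_le] at h1
    simp only [abs_le] at h1
    rw [Finset.mem_product, Finset.mem_Icc, Finset.mem_Icc]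
    exact h1
  have hP0 : 0 ≤ ⌊P⌋ := Int.floor_nonneg.2 hP
  have h1 := Finset.card_le_card hsub
  rw [Finset.card_product, Int.card_Icc] at h1
  have e1 : ⌊P⌋ + 1 - -⌊P⌋ = 2 * ⌊P⌋ + 1 := by ring
  rw [e1] at h1
  have h3 : (T.card : ℤ) ≤ ((2 * ⌊P⌋ + 1).toNat * (2 * ⌊P⌋ + 1).toNat : ℕ) := by exact_mod_cast h1
  push_cast at h3
  rw [Int.toNat_of_nonneg (by omega)] at h3
  have h4 : (T.card : ℝ) ≤ (2 * (⌊P⌋ : ℝ) + 1) * (2 * (⌊P⌋ : ℝ) + 1) := by exact_mod_cast h3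
  have h5 : (⌊P⌋ : ℝ) ≤ P := Int.floor_le P
  have h6 : (0 : ℝ) ≤ ⌊P⌋ := by exact_mod_cast hP0
  calc (T.card : ℝ) ≤ (2 * (⌊P⌋ : ℝ) + 1) * (2 * (⌊P⌋ : ℝ) + 1) := h4
    _ ≤ (2 * P + 1) * (2 * P + 1) := by
        refine mul_le_mul (by linarith) (by linarith) (by positivity) (by positivity)
    _ = _ := by ring

/-- The bulk as a strip of width `n`. -/
theorem cnt_bulk {R n : ℝ} (hR : 0 ≤ R) (hn : 1 ≤ n) (hT : ∀ v ∈ T, (nm v : ℝ) ≤ R * n) :
    Cnt T (QR R) n ∧ CelB T (QR R) n n := by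
  have hn0 : 0 < n := by linarith
  constructor
  · intro x r hr
    have hr1 : (1 : ℝ) ≤ r := by exact_mod_cast hr
    rcases le_total (r : ℝ) n with h | h
    · rw [min_eq_left h]
      have h1 := card_ballT T x hr
      refine h1.trans ?_
      unfold QR
      nlinarith [mul_nonneg (sq_nonneg (R + 2)) (sq_nonneg (r : ℝ))]
    · rw [min_eq_right h]
      have h1 : ((T.filter fun v => nm (v - x) ≤ r).card : ℝ) ≤ (2 * (R * n) + 1) ^ 2 :=
        le_trans (by exact_mod_cast Finset.card_filter_le _ _) (card_box (by positivity) hT)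
      refine h1.trans ?_
      calc (2 * (R * n) + 1) ^ 2 ≤ (2 * (R + 2) * n) ^ 2 := by
            refine pow_le_pow_left₀ (by positivity) ?_ 2
            nlinarith
        _ = 4 * (R + 2) ^ 2 * n * n := by ring
        _ ≤ QR R * r * n := by
            refine mul_le_mul_of_nonneg_right ?_ hn0.le
            unfold QR
            calc 4 * (R + 2) ^ 2 * n ≤ 4 * (R + 2) ^ 2 * r :=
                  mul_le_mul_of_nonneg_left h (by positivity)
              _ ≤ _ := mul_le_mul_of_nonneg_right (by linarith) (by linarith)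
  · intro L hL hLn
    have hL1 : (1 : ℝ) ≤ L := by exact_mod_cast hL
    have h1 := cel_box (T := T) (P := R * n) (by positivity) hT hL
    refine h1.trans ?_
    calc (2 * (R * n) + 2 * L) ^ 2 ≤ (2 * (R + 2) * n) ^ 2 := by
          refine pow_le_pow_left₀ (by positivity) ?_ 2
          nlinarith
      _ = 4 * (R + 2) ^ 2 * n * n := by ring
      _ ≤ QR R * n * n := by
          refine mul_le_mul_of_nonneg_right ?_ hn0.le
          refine mul_le_mul_of_nonneg_right ?_ hn0.le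
          unfold QR; linarith
      _ ≤ QR R * n * (n + L) := by
          refine mul_le_mul_of_nonneg_left (by linarith) ?_
          exact (mul_pos (QR_pos R) hn0).le

variable {P : Measure Cfg}

/-- The masses of the macroscopic pieces of a strip. -/
theorem big_q (hbig : S_big P) : ∃ C α : ℝ, 0 < C ∧ 0 < α ∧ ∀ (c0 R B Q w n : ℝ)
    (D T : Finset (ℤ × ℤ)) (p : ℤ × ℤ) (K : Set (ℤ × ℤ)) (g : ℤ × ℤ → ℝ) (c : Ed → ℝ) (κ : ℝ)
    (ν : Measure Cfg), LayQ c0 R B Q w n D T p K g c → 0 < B → 0 ≤ Q → 0 < w → 1 ≤ w * n →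
    κ ≤ 1 → 16 * κ ≤ c0 → 2 * w ≤ κ → 0 < n → Nu P ν D →
    ∫ x, bigV D p (dvf c) (κ * n) x ∂ν ≤ C * Q * B * (2 * w / κ) ^ α := by
  obtain ⟨C, α, hC, hα, hbig⟩ := hbig
  refine ⟨6 * C, α, by positivity, hα, fun c0 R B Q w n D T p K g c κ ν hL hB hQ hw hwn hκ1 hκc hwκ
    hn hν => ?_⟩
  have hκ : 0 < κ := by linarith
  set h : ℤ := ⌈w * n⌉ with hh
  have h1 : 1 ≤ h := Int.one_le_ceil_iff.2 (by linarith)
  have h1R : (1 : ℝ) ≤ h := by exact_mod_cast h1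
  have hle : w * n ≤ h := Int.le_ceil _
  have hle2 : (h : ℝ) ≤ 2 * (w * n) := by
    have := Int.ceil_lt_add_one (w * n)
    linarith
  have hhκ : (h : ℝ) ≤ κ * n := by nlinarith
  have hhn : (h : ℝ) ≤ n := by nlinarith
  have hmain := hbig D T p c h (κ * n) (B / n) (B / (w * n ^ 2)) ν h1 hhκ hL.cD hL.cT hL.cle
    hL.ηle (fun u hu v hv => hL.deep u hu v (hv.trans (by nlinarith))) hν
  refine hmain.trans ?_
  have hcel := hL.celb h h1 hhn
  have b1 : (h : ℝ) ^ 2 * (B / (w * n ^ 2)) + h * (B / n) ≤ 3 * B * h / n := by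
    have : (h : ℝ) ^ 2 * (B / (w * n ^ 2)) ≤ 2 * B * h / n := by
      rw [mul_div_assoc', div_le_div_iff₀ (by positivity) hn]
      have e1 : (h : ℝ) ^ 2 * B * n = (B * h * n) * h := by ring
      have e2 : 2 * B * h * (w * n ^ 2) = (B * h * n) * (2 * (w * n)) := by ring
      rw [e1, e2]
      exact mul_le_mul_of_nonneg_left hle2 (by positivity)
    calc (h : ℝ) ^ 2 * (B / (w * n ^ 2)) + h * (B / n) ≤ 2 * B * h / n + h * (B / n) := by linarith
      _ = _ := by field_simp; ring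
  have b2 : ((cel T h).card : ℝ) * h ≤ 2 * Q * n := by
    have h2 : ((cel T h).card : ℝ) * h * h ≤ 2 * Q * n * h := by
      calc ((cel T h).card : ℝ) * h * h = ((cel T h).card : ℝ) * h ^ 2 := by ring
        _ ≤ Q * n * (w * n + h) := hcel
        _ ≤ Q * n * (2 * h) := mul_le_mul_of_nonneg_left (by linarith) (by positivity)
        _ = _ := by ring
    exact le_of_mul_le_mul_right h2 (by linarith)
  have b3 : ((h : ℝ) / (κ * n)) ^ α ≤ (2 * w / κ) ^ α := by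
    refine Real.rpow_le_rpow (by positivity) ?_ hα.le
    rw [div_le_div_iff₀ (by positivity) hκ]
    nlinarith
  have b4 : 0 ≤ ((h : ℝ) / (κ * n)) ^ α := by positivity
  calc C * ((cel T h).card : ℝ) * (h ^ 2 * (B / (w * n ^ 2)) + h * (B / n)) *
        ((h : ℝ) / (κ * n)) ^ α
      ≤ C * ((cel T h).card : ℝ) * (3 * B * h / n) * ((h : ℝ) / (κ * n)) ^ α :=
        mul_le_mul_of_nonneg_right (mul_le_mul_of_nonneg_left b1 (by positivity)) b4
    _ = C * (3 * B / n) * (((cel T h).card : ℝ) * h) * ((h : ℝ) / (κ * n)) ^ α := by ring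
    _ ≤ C * (3 * B / n) * (2 * Q * n) * ((h : ℝ) / (κ * n)) ^ α :=
        mul_le_mul_of_nonneg_right (mul_le_mul_of_nonneg_left b2 (by positivity)) b4
    _ = 6 * C * Q * B * ((h : ℝ) / (κ * n)) ^ α := by field_simp; ring
    _ ≤ _ := mul_le_mul_of_nonneg_left b3 (by positivity)

end Vale.Agent.P167.H662.L
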