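import Vale.Agent.P167.H662.L.Lay3

/-!
# P167, general `q`, block Q-LAYER, L-LAY: exponential moments for the data of a comparison
-/

namespace Vale.Agent.P167.H662.L

open Finset Filter Topology MeasureTheory
open Vale.Agent.P167 Vale.Agent.P167.BR
open Vale.Agent.P167.H542 (Geo Nr)
open Vale.Agent.P167.H542.Q (Phs mak)
open Vale.Agent.P167.H562 (Em)
open Vale.Agent.P167.H562.GL (Nu)
open Vale.Agent.P167.H638.L (Cnt CelB cel dvf bigV tot_dvf fd_bigV bigV_nonneg)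
open Vale.Agent.P167.H167 (Fd)

variable {D T : Finset (ℤ × ℤ)} {p : ℤ × ℤ} {K : Set (ℤ × ℤ)} {ω : Cfg} {ℓ : Finset Ed}
  {g : ℤ × ℤ → ℝ} {c : Ed → ℝ} {P : Measure Cfg} {c0 R B Q w n : ℝ}

theorem LayQ.wid (hL : LayQ c0 R B Q w n D T p K g c) {d : ℝ} (hd : 2 * d ≤ c0 * n) :
    ∃ z ∈ K, ∃ z' ∈ K, 2 * d ≤ (nm (z - z') : ℝ) := by
  obtain ⟨z, hz, z', hz', h⟩ := hL.wide
  exact ⟨z, hz, z', hz', hd.trans h⟩

theorem LayQ.etale (hL : LayQ c0 R B Q w n D T p K g c) (z : ℤ × ℤ) :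
    |dvf c z| ≤ B / (w * n * n) :=
  (hL.ηle z).trans (le_of_eq (by ring_nf))

theorem LayQ.sm (hL : LayQ c0 R B Q w n D T p K g c) (hB : 0 < B) (hQ : 0 < Q) (hn : 0 < n)
    (hw : 0 < w) {κ : ℝ} (hκ : 0 < κ) (hκ1 : κ ≤ 1) (hsm : (2 * Q + 36) * B * κ ≤ 1 / 10)
    (hκn : 1 ≤ κ * n) (hl : IsLoop ω ℓ) (hs : Small (κ * n) ℓ) :
    |G g ℓ| + |G (dvf c) ℓ| ≤ 1 / 10 := by
  have h1 : 1 ≤ ⌈κ * n⌉ := Int.one_le_ceil_iff.2 (by linarith)
  have h2 : (⌈κ * n⌉ : ℝ) ≤ 2 * (κ * n) := by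
    have := Int.ceil_lt_add_one (κ * n)
    linarith
  exact G_sm hB hQ hn (by positivity : 0 < w * n) hκ hκ1 hsm hL.cnt hL.ηT hL.etale hL.gle hl h1 h2
    (H45.Small.mono (Int.le_ceil _) hs)

/-- **Exponential moments, strip.** -/
theorem lay_em [IsProbabilityMeasure P] (hem : S_em P) (habs : S_abs P) (hmean : S_mean P)
    (hB : 0 < B) (hQ : 0 < Q) :
    ∃ c1 C1 α1 : ℝ, 0 < c1 ∧ 0 ≤ C1 ∧ 0 < α1 ∧ ∀ (m c0 R w n κ κ₁ t : ℝ) (D T : Finset (ℤ × ℤ))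
      (p : ℤ × ℤ) (K : Set (ℤ × ℤ)) (g : ℤ × ℤ → ℝ) (c : Ed → ℝ) (ν : Measure Cfg),
      LayQ c0 R B Q w n D T p K g c → Nu P ν D → 0 ≤ m → m ≤ Real.pi / 3 → 0 < w → 0 < κ →
      κ ≤ κ₁ → 16 * κ₁ ≤ 1 → 128 * κ₁ ≤ c0 → (2 * Q + 36) * B * κ₁ ≤ 1 / 10 → 1 ≤ κ * n →
      κ₁ * |t| ≤ c1 → ∫ ω, Real.exp (t * SfQ m T g (dvf c) (κ * n) ω) ∂ν ≤
        Real.exp (C1 * (((κ / κ₁) ^ α1 + κ) * |t| + κ₁ * t ^ 2)) := by
  obtain ⟨c1, C1, α1, hc1, hC1, hα1, hE⟩ := sp_q hem habs hmean hB hQ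
  refine ⟨c1, C1, α1, hc1, hC1, hα1, fun m c0 R w n κ κ₁ t D T p K g c ν hL hν hm0 hm1 hw hκ hκκ
    h16 h128 hsm hκn ht => ?_⟩
  have hνp : IsProbabilityMeasure ν := hν.prob
  have hn : 0 < n := by
    by_contra hcon
    have : κ * n ≤ 0 := mul_nonpos_of_nonneg_of_nonpos hκ.le (not_lt.1 hcon)
    linarith
  have hc0n : 128 * (κ * n) ≤ c0 * n := by
    calc 128 * (κ * n) = (128 * κ) * n := by ring
      _ ≤ c0 * n := mul_le_mul_of_nonneg_right (by linarith) hn.le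
  have h64 : 64 * κ₁ * n ≤ c0 * n := mul_le_mul_of_nonneg_right (by linarith) hn.le
  refine Em_intN (fd_SfQ _ _ _ _ _) (Real.exp_pos _).le ?_
  refine hE m κ κ₁ n (w * n) t T D (sites D) ν g (dvf c) hm0 hm1 hκ hκκ h16 hsm hκn (by positivity)
    hL.cnt hL.celb (fun u hu v hv => hL.deep u hu v (hv.trans h64)) hν hL.ηT hL.etale hL.gle ?_ ?_ ?_
    ht
  · intro z hz
    exact hL.ηK z fun hzK => hz (K_sites hL.geo (by linarith) hzK)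
  · exact tot_dvf hL.cD
  · intro ω ℓ hl hs hne
    exact vis_strip hL.geo (by linarith) (by linarith) hL.ηK (hL.wid (by linarith)) hL.cD hL.cT hl hs
      hne

/-- **Exponential moments, bulk.** -/
theorem lay_emg [IsProbabilityMeasure P] (hem : S_em P) (habs : S_abs P) (hmean : S_mean P)
    (hB : 0 < B) (hR : 0 ≤ R) :
    ∃ c2 C2 : ℝ, 0 < c2 ∧ 0 ≤ C2 ∧ ∀ (m c0 Q w n κ t : ℝ) (D T : Finset (ℤ × ℤ))
      (p : ℤ × ℤ) (K : Set (ℤ × ℤ)) (g : ℤ × ℤ → ℝ) (c : Ed → ℝ) (ν : Measure Cfg),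
      LayQ c0 R B Q w n D T p K g c → Nu P ν D → 0 ≤ m → m ≤ Real.pi / 3 → 0 < κ →
      16 * κ ≤ 1 → 128 * κ ≤ c0 → (2 * QR R + 36) * B * κ ≤ 1 / 10 → 1 ≤ κ * n →
      κ * |t| ≤ c2 → ∫ ω, Real.exp (t * SfQ m (zoneK D K) (fun _ => 0) g (κ * n) ω) ∂ν ≤
        Real.exp (C2 * ((1 + κ) * |t| + κ * t ^ 2)) := by
  obtain ⟨c1, C1, α1, hc1, hC1, hα1, hE⟩ := sp_q hem habs hmean hB (QR_pos R)
  refine ⟨c1, C1, hc1, hC1, fun m c0 Q w n κ t D T p K g c ν hL hν hm0 hm1 hκ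
    h16 h128 hsm hκn ht => ?_⟩
  have hνp : IsProbabilityMeasure ν := hν.prob
  have hn : 0 < n := by
    by_contra hcon
    have : κ * n ≤ 0 := mul_nonpos_of_nonneg_of_nonpos hκ.le (not_lt.1 hcon)
    linarith
  have hn1 : 1 ≤ n := by
    have : κ * n ≤ 1 * n := mul_le_mul_of_nonneg_right (by linarith) hn.le
    linarith
  have hc0n : 128 * (κ * n) ≤ c0 * n := by
    calc 128 * (κ * n) = (128 * κ) * n := by ring
      _ ≤ c0 * n := mul_le_mul_of_nonneg_right (by linarith) hn.le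
  obtain ⟨hcnt, hcel⟩ := cnt_bulk (T := zoneK D K) hR hn1 fun v hv => hL.box v (mem_zoneK.1 hv).1
  refine Em_intN (fd_SfQ _ _ _ _ _) (Real.exp_pos _).le ?_
  have hmain := hE m κ κ n n t (zoneK D K) D (sites D) ν (fun _ => 0) g hm0 hm1 hκ le_rfl h16 hsm hκn hn
    hcnt hcel ?_ hν ?_ ?_ ?_ ?_ hL.totg ?_ ht
  · refine hmain.trans (le_of_eq ?_)
    rw [div_self hκ.ne', Real.one_rpow]
  · intro u hu v hv
    obtain ⟨-, z, hz, hzu⟩ := mem_zoneK.1 hu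
    refine hL.geo.nbhd z hz v ?_
    have h1 : nm (v - z) ≤ nm (v - u) + nm (u - z) := H45.nm_sub_le _ _ _
    have h2 : (nm (v - z) : ℝ) ≤ nm (v - u) + 1 := by
      have : nm (v - z) ≤ nm (v - u) + 1 := by linarith
      exact_mod_cast this
    linarith
  · intro z hz
    refine K_zone hL.geo (by linarith) ?_
    by_contra hcon
    exact hz (hL.gK z hcon)
  · intro z
    exact (hL.gle z).trans (le_of_eq (by rw [sq]))
  · intro z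
    rw [abs_zero]
    positivity
  · intro z hz
    exact hL.gK z fun hzK => hz (K_sites hL.geo (by linarith) hzK)
  · intro ω ℓ hl hs hne
    exact vis_bulk hL.geo (by linarith) hL.gK (hL.wid (by linarith)) hl hs hne

end Vale.Agent.P167.H662.L
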