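import Vale.Agent.P167.H662.L.Lay4

/-!
# P167, general `q`, block Q-LAYER, L-LAY: the layer theorem
-/

namespace Vale.Agent.P167.H662.L

open Finset Filter Topology MeasureTheory
open Vale.Agent.P167 Vale.Agent.P167.BR
open Vale.Agent.P167.H542 (Geo Nr)
open Vale.Agent.P167.H542.Q (Phs mak)
open Vale.Agent.P167.H562 (Em)
open Vale.Agent.P167.H562.GL (Nu)
open Vale.Agent.P167.H638.L (Cnt CelB cel dvf bigV tot_dvf fd_bigV bigV_nonneg exists_small)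
open Vale.Agent.P167.H167 (Fd)

variable {D T : Finset (ℤ × ℤ)} {p : ℤ × ℤ} {K : Set (ℤ × ℤ)} {ω : Cfg} {ℓ : Finset Ed}
  {g : ℤ × ℤ → ℝ} {c : Ed → ℝ} {P ν : Measure Cfg} {c0 R B Q w n : ℝ}

/-- The first moment at the larger scale. -/
theorem lay_first [IsProbabilityMeasure ν] (hsub : S_sub) {m cc κ κ0 δ : ℝ}
    {th : Finset Ed → ℝ} (hL : LayQ c0 R B Q w n D T p K g c) (hth : Phs m cc D th)
    (hB : 0 < B) (hQ : 0 < Q) (hw : 0 < w) (hn : 0 < n) (hκκ : κ ≤ κ0)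
    (h16 : 16 * κ0 ≤ 1) (h128 : 128 * κ0 ≤ c0) (hsm : (2 * Q + 36) * B * κ0 ≤ 1 / 10)
    (hκn : 1 ≤ κ0 * n) (t5 : ∫ ω, |SfQ m T g (dvf c) (κ * n) ω| ∂ν ≤ δ / 2)
    (t6 : 4 * ∫ ω, bigV D p (dvf c) (κ * n) ω ∂ν ≤ δ / 2) :
    ∫ ω, |SfQ m T g (dvf c) (κ0 * n) ω| ∂ν ≤ δ := by
  have hκ0 : 0 < κ0 := by
    by_contra hcon
    have : κ0 * n ≤ 0 := mul_nonpos_of_nonpos_of_nonneg (not_lt.1 hcon) hn.le
    linarith
  have hc0n : 128 * (κ0 * n) ≤ c0 * n := by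
    calc 128 * (κ0 * n) = (128 * κ0) * n := by ring
      _ ≤ c0 * n := mul_le_mul_of_nonneg_right h128 hn.le
  have f1 : Fd (fun ω => |SfQ m T g (dvf c) (κ * n) ω|) := (fd_SfQ m T g (dvf c) (κ * n)).abs
  have f2 := fd_bigV D p (dvf c) (κ * n)
  calc ∫ ω, |SfQ m T g (dvf c) (κ0 * n) ω| ∂ν
      ≤ ∫ ω, (|SfQ m T g (dvf c) (κ * n) ω| + 4 * bigV D p (dvf c) (κ * n) ω) ∂ν := by
        refine integral_mono (Fd.intN (fd_SfQ m T g (dvf c) (κ0 * n)).abs)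
          ((Fd.intN f1).add ((Fd.intN f2).const_mul 4)) fun ω => ?_
        simp only
        have h1 := hsub m D T p K (c0 * n) (κ0 * n) (κ * n) g (dvf c) ω hth.m0 hth.m1 hL.geo
          (by linarith) (by linarith) (mul_le_mul_of_nonneg_right hκκ hn.le) hL.ηK
          (tot_dvf hL.cD) (hL.wid (by linarith))
          (fun ℓ hl hs => hL.sm hB hQ hn hw hκ0 (by linarith) hsm hκn hl hs)
        have h2 := abs_sub_abs_le_abs_sub (SfQ m T g (dvf c) (κ0 * n) ω)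
          (SfQ m T g (dvf c) (κ * n) ω)
        linarith
    _ = ∫ ω, |SfQ m T g (dvf c) (κ * n) ω| ∂ν + 4 * ∫ ω, bigV D p (dvf c) (κ * n) ω ∂ν := by
        rw [integral_add (Fd.intN f1) ((Fd.intN f2).const_mul 4), integral_const_mul]
    _ ≤ δ := by linarith

/-- The comparison, given the moments. -/
theorem lay_core [IsProbabilityMeasure ν] (hpt : S_pt) {m cc κ0 δ A1 C4 e1 M : ℝ}
    {th : Finset Ed → ℝ} (hL : LayQ c0 R B Q w n D T p K g c) (hth : Phs m cc D th)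
    (hB : 0 < B) (hQ : 0 < Q) (hw : 0 < w) (hn : 0 < n)
    (h16 : 16 * κ0 ≤ 1) (h128 : 128 * κ0 ≤ c0) (hsm : (2 * Q + 36) * B * κ0 ≤ 1 / 10)
    (hκn : 1 ≤ κ0 * n) (hM : cc⁻¹ ≤ M) (hδ : 0 ≤ δ) (hA1 : 0 ≤ A1) (hC4 : 0 ≤ C4) (he1 : 0 ≤ e1)
    (t1 : ∫ ω, Real.exp (4 * SfQ m (zoneK D K) (fun _ => 0) g (κ0 * n) ω) ∂ν ≤ A1)
    (t2 : ∫ ω, (M ^ 4) ^ (mak K (κ0 * n) D ω).card ∂ν ≤ C4)
    (t3 : ∫ ω, Real.exp (10 * SfQ m T g (dvf c) (κ0 * n) ω) ∂ν ≤ e1)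
    (t4 : ∫ ω, Real.exp (-10 * SfQ m T g (dvf c) (κ0 * n) ω) ∂ν ≤ e1)
    (t8 : ∫ ω, |SfQ m T g (dvf c) (κ0 * n) ω| ∂ν ≤ δ)
    (t7 : ∫ ω, bigV D p (dvf c) (κ0 * n) ω ∂ν ≤ δ) :
    ∫ ω, |XR th D p (fun z => g z + dvf c z) ω - XR th D p g ω| ∂ν ≤
      √(√A1 * √C4) * √(2 * √(√δ * √(10080 * e1)) + 8 * δ) := by
  have hκ0 : 0 < κ0 := by
    by_contra hcon
    have : κ0 * n ≤ 0 := mul_nonpos_of_nonpos_of_nonneg (not_lt.1 hcon) hn.le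
    linarith
  have hc0n : 128 * (κ0 * n) ≤ c0 * n := by
    calc 128 * (κ0 * n) = (128 * κ0) * n := by ring
      _ ≤ c0 * n := mul_le_mul_of_nonneg_right h128 hn.le
  have hcc : 0 ≤ cc⁻¹ := inv_nonneg.2 hth.c0.le
  have hM0 : 0 ≤ M := hcc.trans hM
  have hsmℓ : ∀ (ω : Cfg) (ℓ : Finset Ed), IsLoop ω ℓ → Small (κ0 * n) ℓ →
      |G g ℓ| + |G (dvf c) ℓ| ≤ 1 / 10 := fun ω ℓ hl hs =>
    hL.sm hB hQ hn hw hκ0 (by linarith) hsm hκn hl hs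
  have hwid := hL.wid (d := κ0 * n) (by linarith)
  have t9 := int_exp_subN (fd_SfQ m T g (dvf c) (κ0 * n)) hδ he1 t8 t3 t4
  refine combN (N := fun ω => (mak K (κ0 * n) D ω).card) (M := M)
    (fd_XR th D p g) (fd_XR th D p fun z => g z + dvf c z)
    (fd_SfQ m (zoneK D K) (fun _ => 0) g (κ0 * n)) (fd_SfQ m T g (dvf c) (κ0 * n))
    (fd_bigV D p (dvf c) (κ0 * n)) (fd_mak K (κ0 * n) D) hM0 (fun ω => bigV_nonneg _ _ _ _ _)
    (fun ω => ?_) (Real.sqrt_nonneg A1) (Real.sqrt_nonneg C4)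
    (Real.sqrt_nonneg (√δ * √(10080 * e1))) hδ ?_ ?_ ?_ t7
  · have h1 := hpt m cc D (zoneK D K) T p K (c0 * n) (κ0 * n) th g (dvf c) ω hth hL.geo
      (by linarith) (by linarith) hL.gK hL.ηK hL.totg (tot_dvf hL.cD) hwid (hsmℓ ω)
      (fun ℓ hl hs hne => vis_bulk hL.geo (by linarith) hL.gK hwid hl hs hne)
      (fun ℓ hl hs hne => vis_strip hL.geo (by linarith) (by linarith) hL.ηK hwid hL.cD hL.cT hl hs
        hne)
    refine h1.trans (mul_le_mul_of_nonneg_right (mul_le_mul_of_nonneg_left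
      (pow_le_pow_left₀ hcc hM _) (Real.exp_pos _).le) ?_)
    exact add_nonneg (abs_nonneg _) (mul_nonneg (by norm_num) (Real.sqrt_nonneg _))
  · rw [Real.sq_sqrt hA1]; exact t1
  · rw [Real.sq_sqrt hC4]; exact t2
  · rw [Real.sq_sqrt (by positivity)]; exact t9

/-- The scale `κ0`. -/
theorem exists_k0 {c0 a b c1 c2 : ℝ} (h0 : 0 < c0) (ha : 0 < a) (hb : 0 < b) (h1 : 0 < c1)
    (h2 : 0 < c2) : ∃ κ0 : ℝ, 0 < κ0 ∧ 16 * κ0 ≤ 1 ∧ 128 * κ0 ≤ c0 ∧ a * κ0 ≤ 1 / 10 ∧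
      b * κ0 ≤ 1 / 10 ∧ κ0 * 10 ≤ c1 ∧ κ0 * 4 ≤ c2 := by
  set s : ℝ := 16 + 128 / c0 + 10 * a + 10 * b + 10 / c1 + 4 / c2 with hs
  have p1 : 0 < 128 / c0 := by positivity
  have p2 : 0 < 10 / c1 := by positivity
  have p3 : 0 < 4 / c2 := by positivity
  have hs0 : 0 < s := by positivity
  refine ⟨1 / s, by positivity, ?_, ?_, ?_, ?_, ?_, ?_⟩
  · rw [mul_one_div, div_le_one hs0]; rw [hs]; linarith
  · rw [mul_one_div, div_le_iff₀ hs0]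
    have : 128 = c0 * (128 / c0) := by field_simp
    calc (128 : ℝ) = c0 * (128 / c0) := this
      _ ≤ c0 * s := mul_le_mul_of_nonneg_left (by rw [hs]; linarith) h0.le
  · rw [mul_one_div, div_le_iff₀ hs0, hs]; linarith
  · rw [mul_one_div, div_le_iff₀ hs0, hs]; linarith
  · rw [mul_comm, mul_one_div, div_le_iff₀ hs0]
    have : 10 = c1 * (10 / c1) := by field_simp
    calc (10 : ℝ) = c1 * (10 / c1) := this
      _ ≤ c1 * s := mul_le_mul_of_nonneg_left (by rw [hs]; linarith) h1.le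
  · rw [mul_comm, mul_one_div, div_le_iff₀ hs0]
    have : 4 = c2 * (4 / c2) := by field_simp
    calc (4 : ℝ) = c2 * (4 / c2) := this
      _ ≤ c2 * s := mul_le_mul_of_nonneg_left (by rw [hs]; linarith) h2.le

/-- The scales `κ₁` and `κ`. -/
theorem exists_k1 {κ0 c1 M δ α : ℝ} (h0 : 0 < κ0) (h1 : 0 < c1) (hδ : 0 < δ) (hα : 0 < α) :
    ∃ κ₁ κ : ℝ, 0 < κ₁ ∧ κ₁ ≤ κ0 ∧ √κ₁ ≤ c1 ∧ 2 * M * √κ₁ ≤ δ ∧ 0 < κ ∧ κ ≤ κ₁ ∧
      ((κ / κ₁) ^ α + κ) * (1 / √κ₁) ≤ 1 := by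
  obtain ⟨d1, hd1, e1⟩ := exists_small (F := fun x => √x) (by fun_prop) (by simp) h1
  obtain ⟨d2, hd2, e2⟩ := exists_small (F := fun x => 2 * M * √x) (by fun_prop) (by simp) hδ
  set κ₁ := min (min (d1 / 2) (d2 / 2)) κ0 with hκ₁
  have hp : 0 < κ₁ := lt_min (lt_min (by positivity) (by positivity)) h0
  have l1 : κ₁ < d1 := lt_of_le_of_lt ((min_le_left _ _).trans (min_le_left _ _)) (by linarith)
  have l2 : κ₁ < d2 := lt_of_le_of_lt ((min_le_left _ _).trans (min_le_right _ _)) (by linarith)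
  obtain ⟨d3, hd3, e3⟩ := exists_small (F := fun x => ((x / κ₁) ^ α + x) * (1 / √κ₁))
    (by
      have h1 : ContinuousAt (fun x : ℝ => (x / κ₁) ^ α) 0 :=
        ContinuousAt.rpow_const (by fun_prop) (Or.inr hα.le)
      exact (h1.add continuousAt_id).mul_const _)
    (by simp [Real.zero_rpow hα.ne']) (by norm_num : (0 : ℝ) < 1)
  have hq : 0 < min (d3 / 2) κ₁ := lt_min (by positivity) hp
  exact ⟨κ₁, min (d3 / 2) κ₁, hp, min_le_right _ _, e1 κ₁ hp l1, e2 κ₁ hp l2, hq, min_le_right _ _,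
    e3 _ hq (lt_of_le_of_lt (min_le_left _ _) (by linarith))⟩

/-- The width. -/
theorem exists_w0 {C3 κ κ0 δ α : ℝ} (hκ : 0 < κ) (hδ : 0 < δ) (hα : 0 < α) :
    ∃ w0 : ℝ, 0 < w0 ∧ ∀ w, 0 < w → w < w0 → 4 * (C3 * (2 * w / κ) ^ α) ≤ δ / 2 ∧
      C3 * (2 * w / κ0) ^ α ≤ δ ∧ 2 * w ≤ κ := by
  obtain ⟨d9, hd9, e9⟩ := exists_small (F := fun w => 4 * (C3 * (2 * w / κ) ^ α))
    (by
      have h1 : ContinuousAt (fun w : ℝ => (2 * w / κ) ^ α) 0 :=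
        ContinuousAt.rpow_const (by fun_prop) (Or.inr hα.le)
      exact (h1.const_mul _).const_mul _)
    (by simp [Real.zero_rpow hα.ne']) (by positivity : 0 < δ / 2)
  obtain ⟨d10, hd10, e10⟩ := exists_small (F := fun w => C3 * (2 * w / κ0) ^ α)
    (by
      have h1 : ContinuousAt (fun w : ℝ => (2 * w / κ0) ^ α) 0 :=
        ContinuousAt.rpow_const (by fun_prop) (Or.inr hα.le)
      exact h1.const_mul _)
    (by simp [Real.zero_rpow hα.ne']) hδ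
  refine ⟨min (min d9 d10) (κ / 2), lt_min (lt_min hd9 hd10) (by positivity), fun w hw hww0 => ?_⟩
  simp only [lt_min_iff] at hww0
  obtain ⟨⟨w1, w2⟩, w3⟩ := hww0
  exact ⟨e9 w hw w1, e10 w hw w2, by linarith⟩

/-- **The layer theorem.** -/
theorem s_lay [IsProbabilityMeasure P] (hpt : S_pt) (hsub : S_sub) (hem : S_em P)
    (habs : S_abs P) (hmean : S_mean P) (hbig : S_big P) (hmac : S_mac P) : S_lay P := by
  intro m cc c0 R B Q hm0 hm1 hcc hc0 hR hB hQ ε hε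
  obtain ⟨c1, C1, α1, hc1, hC1, hα1, hS⟩ := lay_em hem habs hmean hB hQ
  obtain ⟨c2, C2, hc2, hC2, hGm⟩ := lay_emg hem habs hmean hB hR
  obtain ⟨C3, α, hC3, hα, hbg⟩ := big_q hbig
  obtain ⟨κ0, hκ0, q1, q2, q3, q4, q5, q6⟩ := exists_k0 (a := (2 * Q + 36) * B)
    (b := (2 * QR R + 36) * B) hc0 (by positivity)
    (mul_pos (by linarith [QR_pos R]) hB) hc1 hc2
  set M : ℝ := max 1 cc⁻¹ with hM
  have hM1 : 1 ≤ M := le_max_left _ _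
  obtain ⟨C4, n4, hC4, hn4, hNb⟩ := hmac κ0 R (M ^ 4) hκ0 hR (one_le_pow₀ hM1)
  set e1 : ℝ := Real.exp (C1 * (((κ0 / κ0) ^ α1 + κ0) * 10 + κ0 * 10 ^ 2)) with he1
  set A1 : ℝ := Real.exp (C2 * ((1 + κ0) * 4 + κ0 * 4 ^ 2)) with hA1
  set M5 : ℝ := Real.exp (C1 * 2) with hM5
  have he1p : 0 < e1 := Real.exp_pos _
  have hA1p : 0 < A1 := Real.exp_pos _
  have hM5p : 0 < M5 := Real.exp_pos _
  obtain ⟨δ0, hδ0, hδ⟩ := exists_small
    (F := fun x => √(√A1 * √C4) * √(2 * √(√x * √(10080 * e1)) + 8 * x)) (by fun_prop) (by simp) hε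
  set δ := δ0 / 2 with hδd
  have hδp : 0 < δ := by positivity
  have hδε := hδ δ hδp (by rw [hδd]; linarith)
  obtain ⟨κ₁, κ, hκ₁, r1, r2, r3, hκ, r4, r5⟩ := exists_k1 (κ0 := κ0) (M := M5) hκ0 hc1
    (by positivity : 0 < δ / 2) hα1
  obtain ⟨w0, hw0, hw1⟩ := exists_w0 (C3 := C3 * Q * B) (κ0 := κ0) hκ hδp hα
  refine ⟨w0, hw0, fun w hw hww0 => ?_⟩
  obtain ⟨g9, g10, g11⟩ := hw1 w hw hww0
  refine ⟨max (max (1 / κ) (1 / w)) (max n4 1), fun n hn D T p K g c th ν hth hL hν => ?_⟩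
  have hνp : IsProbabilityMeasure ν := hν.prob
  simp only [ge_iff_le, max_le_iff] at hn
  obtain ⟨⟨n1, n2⟩, n3, n5⟩ := hn
  have hnp : 0 < n := by linarith
  have hκn : 1 ≤ κ * n := by rw [div_le_iff₀ hκ] at n1; linarith
  have hwn : 1 ≤ w * n := by rw [div_le_iff₀ hw] at n2; linarith
  have hκκ0 : κ ≤ κ0 := r4.trans r1
  have hκ0n : 1 ≤ κ0 * n := hκn.trans (mul_le_mul_of_nonneg_right hκκ0 hnp.le)
  have hc0n : 128 * (κ0 * n) ≤ c0 * n := by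
    calc 128 * (κ0 * n) = (128 * κ0) * n := by ring
      _ ≤ c0 * n := mul_le_mul_of_nonneg_right q2 hnp.le
  have hQB : 0 ≤ (2 * Q + 36) * B := by positivity
  have hsq : 0 < √κ₁ := Real.sqrt_pos.2 hκ₁
  have hss : √κ₁ * √κ₁ = κ₁ := Real.mul_self_sqrt hκ₁.le
  -- exponential moments
  have t1 : ∫ ω, Real.exp (4 * SfQ m (zoneK D K) (fun _ => 0) g (κ0 * n) ω) ∂ν ≤ A1 := by
    have h := hGm m c0 Q w n κ0 4 D T p K g c ν hL hν hm0 hm1 hκ0 q1 q2 q4 hκ0n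
      (by rw [abs_of_pos (by norm_num : (0 : ℝ) < 4)]; exact q6)
    rwa [abs_of_pos (by norm_num : (0 : ℝ) < 4)] at h
  have t2 : ∫ ω, (M ^ 4) ^ (mak K (κ0 * n) D ω).card ∂ν ≤ C4 :=
    hNb n n3 D p K (c0 * n) ν hL.geo (by linarith) hL.box hν
  have t3 : ∀ s : ℝ, |s| = 10 → ∫ ω, Real.exp (s * SfQ m T g (dvf c) (κ0 * n) ω) ∂ν ≤ e1 := by
    intro s hs
    have h := hS m c0 R w n κ0 κ0 s D T p K g c ν hL hν hm0 hm1 hw hκ0 le_rfl q1 q2 q3 hκ0n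
      (by rw [hs]; exact q5)
    rwa [← sq_abs s, hs] at h
  have t4 : ∀ s : ℝ, |s| = 1 / √κ₁ →
      ∫ ω, Real.exp (s * SfQ m T g (dvf c) (κ * n) ω) ∂ν ≤ M5 := by
    intro s hs
    refine (hS m c0 R w n κ κ₁ s D T p K g c ν hL hν hm0 hm1 hw hκ r4 (by linarith) (by linarith)
      ((mul_le_mul_of_nonneg_left r1 hQB).trans q3) hκn ?_).trans
      (Real.exp_le_exp.2 (mul_le_mul_of_nonneg_left ?_ hC1))
    · rw [hs, mul_one_div, div_le_iff₀ hsq]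
      calc κ₁ = √κ₁ * √κ₁ := hss.symm
        _ ≤ c1 * √κ₁ := mul_le_mul_of_nonneg_right r2 hsq.le
    · rw [← sq_abs s, hs]
      have h2 : κ₁ * (1 / √κ₁) ^ 2 = 1 := by
        rw [div_pow, one_pow, Real.sq_sqrt hκ₁.le, mul_one_div_cancel hκ₁.ne']
      rw [h2]
      linarith
  have t5 : ∫ ω, |SfQ m T g (dvf c) (κ * n) ω| ∂ν ≤ δ / 2 := by
    have h := int_abs_leN (fd_SfQ m T g (dvf c) (κ * n)) (τ := 1 / √κ₁) (by positivity)
      (t4 _ (abs_of_pos (by positivity))) (t4 _ (by rw [abs_neg]; exact abs_of_pos (by positivity)))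
    refine (h.trans (le_of_eq ?_)).trans r3
    rw [div_div_eq_mul_div, div_one]
  have t6 : 4 * ∫ ω, bigV D p (dvf c) (κ * n) ω ∂ν ≤ δ / 2 := by
    have h := hbg c0 R B Q w n D T p K g c κ ν hL hB hQ.le hw hwn (by linarith) (by linarith) g11
      hnp hν
    linarith
  have t7 : ∫ ω, bigV D p (dvf c) (κ0 * n) ω ∂ν ≤ δ :=
    (hbg c0 R B Q w n D T p K g c κ0 ν hL hB hQ.le hw hwn (by linarith) (by linarith)
      (by linarith) hnp hν).trans g10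
  have t8 := lay_first hsub hL hth hB hQ hw hnp hκκ0 q1 q2 q3 hκ0n t5 t6
  exact (lay_core hpt hL hth hB hQ hw hnp q1 q2 q3 hκ0n (le_max_right _ _) hδp.le hA1p.le hC4.le
    he1p.le t1 t2 (t3 10 (abs_of_pos (by norm_num)))
    (t3 (-10) (by rw [abs_neg]; exact abs_of_pos (by norm_num))) t8 t7).trans hδε

end Vale.Agent.P167.H662.L
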