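import Vale.Agent.P167.H662.L.Lay5
import Vale.Agent.P167.H662.L.EM3
import Vale.Agent.P167.H542.Q.Pt
import Vale.Agent.P167.H542.Q.Lw
import Vale.Agent.P167.H760.L.Big

/-!
# P167, general `q`, block Q-LAYER: the layer theorem, from the inputs on the measure and (L-ABS)
-/

namespace Vale.Agent.P167.H662.L

open MeasureTheory
open Vale.Agent.P167

/-- **The layer theorem**, from the inputs. -/
theorem s_layI {q al Ca : ℝ} {P : Measure Cfg} (hI : Inp q al Ca P) (habs : S_abs P) : S_lay P := by
  have hP : IsProbabilityMeasure P := hI.lim.1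
  exact s_lay H542.Q.PT.s_pt H542.Q.PT.s_sub (s_em hI) habs
    (H542.Q.s_mean (by linarith [hI.one]) hI.lim) (H760.L.l_big hI) (H760.L.l_mac hI)

end Vale.Agent.P167.H662.L
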