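import Vale.Agent.P167.H662.L.Lay7
import Vale.Agent.P167.H662.L.Abs

/-!
# P167, general `q`, block Q-LAYER: the layer theorem, no further input
-/

namespace Vale.Agent.P167.H662.L

open MeasureTheory
open Vale.Agent.P167 Vale.Agent.P167.FKA Vale.Agent.P167.FK
open Vale.Agent.P167.H519 (IsLim)

/-- **The layer theorem.** -/
theorem s_layF {q : ℝ} (hq : 1 ≤ q) (h : RSW q) {P : Measure Cfg} (hP : IsLim q P) :
    S_lay P := by
  obtain ⟨al, Ca, hI⟩ := inp_of hq h hP
  exact s_layI hI (s_abs hI)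

end Vale.Agent.P167.H662.L
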